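import Crest.Agent.X212.H7.K

/-!
# X212/H7/Defs (helper7): the tower of regluings in the language of forms, and the leaves

* `Kl` (the helical part can be killed), `Hx` (helical slab), `Col` (a column), `Fib` (a box for a
  circle valued map), `FT` (the tower), `Two` (two caps), `Out` (what the gauge theory gets);
* the leaves `TwStmt`, `Top2Stmt`, `RgbStmt`, `ColStmt`, `FibStmt`.
-/

set_option autoImplicit false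
set_option linter.unusedSectionVars false

open Set Filter Topology Function
open scoped ContDiff Manifold
open Crest.Agent.X212.Dr59 Crest.Agent.X212.Int54 Crest.Agent.X212.Cyl58
open Crest.Agent.X212.Sep15 (EE IR CM End Box slab px Rg Bs Jo)
open Crest.Agent.X212.Bb31 (Fm Df Pos Cy SP Z2 Dy AA Cap BBR)
open Crest.Agent.X212.Sym24 (pu dT nc)
open Crest.Agent.X212.Line51 (ang)

noncomputable section

namespace Crest.Agent.X212.H7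

variable {Y : CM 3} {R : CM 2}

/-- the helical part `ν` can be killed -/
def Kl (oR ν : Fm 2 R) : Prop := Dg 1 univ ν ∧ ∃ (θ θ₁ : Fm 2 R) (t : Df R),
  Cl (𝓡 2) 1 univ θ ∧ (∀ x, ν x ≠ 0 → 0 < rat oR (θ * ν) x) ∧ Pos oR t ∧ Cl (𝓡 2) 1 univ θ₁ ∧
    Ex (𝓡 2) univ (θ - (θ₁ - pm (𝓡 2) (𝓡 2) t θ₁))

/-- a helical slab: `b^* τ = k dy + ν` over `(-3, 3)` -/
structure Hx (b : R × ℝ → Y) (U : Set Y) (τ : Fm 3 Y) (ν : Fm 2 R) : Prop where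
  sub : slab b (Icc (-3) 3) ⊆ U
  sm : Sm (𝓡 3) U τ
  dg : Dg 1 U τ
  eq : ∃ k : R × ℝ → ℝ, (∀ p, 0 < k p) ∧ ∀ x, ∀ y ∈ Ioo (-3 : ℝ) 3,
    pm (IR 2) (𝓡 3) b τ (x, y) = k (x, y) • dT (EE 2) + pu ν (x, y)

/-- a column in `U`, transverse to `τ`, from the top of the slab to its bottom -/
structure Column (b : R × ℝ → Y) (U : Set Y) (τ : Fm 3 Y) (c : EE 2 × ℝ → Y) (e₁ e₂ : EE 2 → R)
    (L : ℝ) : Prop where
  len : 6 ≤ L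
  ld : ∀ p : EE 2 × ℝ, p.2 ∈ Ioo 2 (L - 2) → IsLocalDiffeomorphAt (IR 2) (𝓡 3) ∞ c p
  inj : InjOn c (univ ×ˢ Ioo 2 (L - 2))
  sub : ∀ p : EE 2 × ℝ, p.2 ∈ Ioo 2 (L - 2) → c p ∈ U
  pos : ∀ p : EE 2 × ℝ, p.2 ∈ Ioo 2 (L - 2) → 0 < e0 (nc (pm (IR 2) (𝓡 3) c τ p))
  top : ∀ u, ∀ t ∈ Ioo (2 : ℝ) 3, c (u, t) = b (e₁ u, t)
  bot : ∀ u, ∀ t ∈ Ioo (-3 : ℝ) (-2), c (u, t + L) = b (e₂ u, t)
  out : ∀ u, ∀ t ∈ Icc 3 (L - 3), c (u, t) ∉ slab b (Ioo (-3) 3)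

/-- there is a column -/
def Col (b : R × ℝ → Y) (U : Set Y) (τ : Fm 3 Y) : Prop := ∃ c e₁ e₂ L, Column b U τ c e₁ e₂ L

/-- the parametrisation of the circle minus `1` -/
def cay (s : ℝ) : Circle := Circle.exp (Real.pi + 2 * Real.arctan s)

/-- `b` is a product structure on `Φ ≠ 1` -/
structure Fib (Φ : Y → Circle) (b : R × ℝ → Y) : Prop where
  sm : ContMDiff (𝓡 3) (𝓡 1) ∞ Φ
  box : Box b
  rg : range b = {p | Φ p ≠ 1}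
  eq : ∀ p, Φ (b p) = cay p.2

/-- the tower: from a fibration with fibre of genus at least three downwards -/
inductive FT : (Y : CM 3) → Set Y → Fm 3 Y → Prop
  | base {Y : CM 3} {R : CM 2} {Φ : Y → Circle} {b : R × ℝ → Y} {oR : Fm 2 R} :
      Fib Φ b → (∀ p, ang (𝓡 3) Φ p ≠ 0) → PreconnectedSpace R → Ori (𝓡 2) oR → G3 oR →
      FT Y univ (ang (𝓡 3) Φ)
  | step {Y Y' : CM 3} {R : CM 2} {b : R × ℝ → Y} {h : Df R} {b' : R × ℝ → Y'} (G : Rg b h b')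
      {oR ν : Fm 2 R} {U : Set Y} {τ : Fm 3 Y} {U' : Set Y'} {τ' : Fm 3 Y'} :
      PreconnectedSpace R → Ori (𝓡 2) oR → KK oR h → Kl oR ν → Hx b U τ ν → Col b U τ →
      Dy b' τ' (Ioo (-1) 1) → (∀ p ∉ slab b (Ioo (-1) 1), G.φ p ∈ U' →
        p ∈ U ∧ ∃ f > (0 : ℝ), pm (𝓡 3) (𝓡 3) G.φ τ' p = f • τ p) → FT Y U τ → FT Y' U' τ'

/-- universal caps on both sides, for one form `β` -/
def Two (P : ∀ Y : CM 3, End Y → Prop) (Y : CM 3) (o β : Fm 3 Y) (U : Set Y) (τ : Fm 3 Y) : Prop :=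
  β ∈ AA o β U τ ∧ Cap P Y o (AA o β U τ) ∧ Cap P Y (-o) (AA o β U τ)

/-- `BASE*` with the extra property -/
def BaseQ (P : ∀ Y : CM 3, End Y → Prop) : Prop := ∀ (Y : CM 3) (R : CM 2) (C : End Y) (B : Bs R C)
  (o β τ : Fm 3 Y) (oR : Fm 2 R), PreconnectedSpace R → (∃ o₀ : Fm 2 R, Ori (𝓡 2) o₀ ∧ G3 o₀) →
  Ori (𝓡 3) o → Ori (𝓡 2) oR →
  SameOn (pm ((𝓡 2).prod (𝓡 1)) (𝓡 3) B.f o) (Orx52.pr oR Orx52.oC) univ →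
  (∀ p, ∃ f > (0 : ℝ), pm ((𝓡 2).prod (𝓡 1)) (𝓡 3) B.f τ p =
    f • pm ((𝓡 2).prod (𝓡 1)) (𝓡 1) Prod.snd Orx52.oC p) → Cap P Y o (AA o β univ τ)

/-- the closed four-manifold handed to the gauge theory -/
def Out (P : ∀ Y : CM 3, End Y → Prop) (Y : CM 3) (o : Fm 3 Y) (Φ : Y → Circle) : Prop :=
  ∃ (C₁ C₂ : End Y) (X : CM 4) (J : Jo C₁ C₂ X) (O : Fm 4 X) (β : Fm 3 Y) (u : Y → Circle),
    P Y C₁ ∧ P Y C₂ ∧ Ori (𝓡 4) O ∧ Cy o O (J.i₁ ∘ C₁.j) ∧ ContMDiff (𝓡 3) (𝓡 1) ∞ u ∧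
    Ex (𝓡 3) univ (ang (𝓡 3) u - ang (𝓡 3) Φ) ∧ Z2 β ∧ 0 < integ (𝓡 3) o (β * ang (𝓡 3) u) ∧
    BBR O (J.i₁ ∘ C₁.j) β (ang (𝓡 3) u)

/-! ### leaves -/

/-- `TW` (helper39) -/
def TwStmt : Prop := ∀ (R : CM 2) (oR ν : Fm 2 R) (A B : ℂ → R) (δ r : ℝ) (g : ℂ → ℝ),
  Ori (𝓡 2) oR → Hd oR A B δ → r < δ → Dg 1 univ ν → (∀ z, 0 ≤ g z) →
  (∀ z : ℂ, pm 𝓘(ℝ, ℂ) (𝓡 2) A ν z = g z • df 𝓘(ℝ, ℂ) Complex.im z) →
  (∀ x ∉ A '' {z | |z.im| ≤ r}, ν x = 0) → Kl oR ν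

/-- `TOP2` (helper37) -/
def Top2Stmt : Prop := ∀ (R : CM 2) (oR a : Fm 2 R), PreconnectedSpace R → Ori (𝓡 2) oR →
  Sm (𝓡 2) univ a → Dg 2 univ a → integ (𝓡 2) oR a = 0 → Ex (𝓡 2) univ a

/-- `RGB` (helper37): closed two-forms through a regluing -/
def RgbStmt : Prop := ∀ (Y Y' : CM 3) (R : CM 2) (b : R × ℝ → Y) (h : Df R) (b' : R × ℝ → Y')
  (G : Rg b h b') (β : Fm 3 Y) (oR : Fm 2 R), PreconnectedSpace R → Ori (𝓡 2) oR → Pos oR h →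
  Z2 β → SP oR b β (Icc (-1) 1) → ∃ β' : Fm 3 Y', Z2 β' ∧ SP oR b' β' (Icc (-1) 1) ∧
    ∀ p ∉ slab b (Icc (-2⁻¹) 2⁻¹), pm (𝓡 3) (𝓡 3) G.φ β' p = β p

/-- `COL` (helper3): one column makes the slices positive -/
def ColStmt : Prop := ∀ (Y : CM 3) (R : CM 2) (o β τ : Fm 3 Y) (U : Set Y) (oR ν : Fm 2 R)
  (b : R × ℝ → Y), PreconnectedSpace R → Ori (𝓡 3) o → Ori (𝓡 2) oR → Box b → Cy oR o b →
  Kl oR ν → Hx b U τ ν → Col b U τ → β ∈ AA o β U τ →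
  ∃ β' ∈ AA o β U τ, SP oR b β' (Icc (-1) 1)

/-- `FIB`: a fibration over the circle is a regluing of the product -/
def FibStmt : Prop := ∀ (Y : CM 3) (R : CM 2) (Φ : Y → Circle) (b : R × ℝ → Y), Fib Φ b →
  (∀ p, ang (𝓡 3) Φ p ≠ 0) → ∃ (Y₀ : CM 3) (f : (R × Circle) ≃ₘ^∞⟮(𝓡 2).prod (𝓡 1), 𝓡 3⟯ Y₀)
    (h : Df R) (b' : R × ℝ → Y) (G : Rg (fun p : R × ℝ => f (p.1, cay p.2)) h b'),
    (∀ p, Φ (b' p) = cay p.2) ∧ ∀ p ∈ G.φ.source, Φ (G.φ p) = (f.symm p).2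

end Crest.Agent.X212.H7
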