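import Crest.Agent.X212.Bb31.Stm

/-!
# X212/H7/K (helper7): the regluing class `KK` on closed surfaces `CM 2`, annuli, handles

`KK o h`: `h` is a product of commutators of positive diffeomorphisms and of ends of isotopies.
`An`, `NS`, `Hd`, `G3` are the notions of `Prf6/Defs` for the model `𝓡 2`.
-/

set_option autoImplicit false
set_option linter.unusedSectionVars false

open Set Filter Topology Function
open scoped ContDiff Manifold
open Crest.Agent.X212.Dr59 Crest.Agent.X212.Int54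
open Crest.Agent.X212.Sep15 (CM)
open Crest.Agent.X212.Bb31 (Fm Df Pos)

noncomputable section

namespace Crest.Agent.X212.H7

variable {R : CM 2}

/-- a smooth isotopy from the identity (with smooth inverse family) -/
structure Iso (φ : ℝ → Df R) : Prop where
  sm : ContMDiff (𝓘(ℝ, ℝ).prod (𝓡 2)) (𝓡 2) ∞ fun p : ℝ × R => φ p.1 p.2
  sm' : ContMDiff (𝓘(ℝ, ℝ).prod (𝓡 2)) (𝓡 2) ∞ fun p : ℝ × R => (φ p.1).symm p.2
  zero : ∀ x, φ 0 x = x

/-- products of commutators of positive diffeomorphisms and of ends of isotopies -/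
inductive KK (o : Fm 2 R) : Df R → Prop
  | comm {h : Df R} (s t : Df R) : Pos o s → Pos o t → (∀ x, h x = s.symm (t (s (t.symm x)))) →
      KK o h
  | iso {h : Df R} (φ : ℝ → Df R) : Iso φ → (∀ x, h x = φ 1 x) → KK o h
  | mul {f g h : Df R} : KK o f → KK o g → (∀ x, h x = f (g x)) → KK o h

theorem KK.congr {o : Fm 2 R} {f g : Df R} (h : KK o f) (e : ∀ x, g x = f x) : KK o g := by
  cases h with
  | comm s t a b c => exact .comm s t a b fun x => (e x).trans (c x)
  | iso φ a c => exact .iso φ a fun x => (e x).trans (c x)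
  | mul a b c => exact .mul a b fun x => (e x).trans (c x)

theorem KK.refl (o : Fm 2 R) : KK o (Diffeomorph.refl _ _ _) :=
  .iso (fun _ => Diffeomorph.refl _ _ _) ⟨contMDiff_snd, contMDiff_snd, fun _ => rfl⟩ fun _ => rfl

theorem pos_symm {o : Fm 2 R} {f : Df R} (h : Pos o f) : Pos o f.symm := fun y _ => by
  have m : ∀ (g : Df R) x, MDifferentiableAt (𝓡 2) (𝓡 2) g x := fun g x =>
    g.contMDiff.mdifferentiableAt (by simp)
  have h1 := h (f.symm y) (mem_univ _)
  have e : pm (𝓡 2) (𝓡 2) f.symm (pm (𝓡 2) (𝓡 2) f o) y = o y := by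
    rw [pm_comp (m _ _) (m _ _), show (f : R → R) ∘ f.symm = id from funext f.apply_symm_apply,
      pm_id]
  rw [← e]
  simp only [pm_apply, tp_pb_self] at h1 ⊢
  have hd : (mf (𝓡 2) (𝓡 2) f.symm y).det ≠ 0 := fun z => by
    have := congrArg (tp _) e
    have e2 := congrArg ContinuousLinearMap.det (mf_comp (m f (f.symm y)) (m f.symm y))
    rw [show (f : R → R) ∘ f.symm = id from funext f.apply_symm_apply, mf_id] at e2
    have e3 : (1 : ℝ) = (mf (𝓡 2) (𝓡 2) f (f.symm y)).det * (mf (𝓡 2) (𝓡 2) f.symm y).det :=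
      (LinearMap.det_id.symm.trans e2).trans (LinearMap.det_comp _ _)
    rw [z, mul_zero] at e3
    exact one_ne_zero e3
  have := mul_pos h1 (mul_self_pos.2 hd)
  linarith

theorem KK.symm {o : Fm 2 R} {f : Df R} (h : KK o f) : KK o f.symm := by
  induction h with
  | @comm h s t a b c =>
    refine .comm t.symm s.symm (pos_symm b) (pos_symm a) fun x => h.injective ?_
    show h (h.symm x) = h _
    rw [h.apply_symm_apply, c]
    simp
  | @iso h φ a c =>
    refine .iso (fun t => (φ t).symm) ⟨a.sm', a.sm, fun x => (φ 0).injective ?_⟩ fun x =>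
      h.injective ?_
    · show φ 0 ((φ 0).symm x) = φ 0 x
      rw [Diffeomorph.apply_symm_apply, a.zero]
    · show h (h.symm x) = h _
      rw [h.apply_symm_apply, c, Diffeomorph.apply_symm_apply]
  | @mul f g h _ _ c a b =>
    refine .mul b a fun x => h.injective ?_
    show h (h.symm x) = h _
    rw [h.apply_symm_apply, c]
    simp

/-- positive annulus chart (`re` = angle of period one, `im` = height) -/
structure An (o : Fm 2 R) (A : ℂ → R) : Prop where
  ld : IsLocalDiffeomorph 𝓘(ℝ, ℂ) (𝓡 2) ∞ A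
  pos : SameOn (pm 𝓘(ℝ, ℂ) (𝓡 2) A o) Orx52.oZ univ
  per : ∀ z w, A z = A w ↔ ∃ n : ℤ, w = z + n

/-- the image of the real axis -/
def core (A : ℂ → R) : Set R := range fun t : ℝ => A t

/-- the core does not separate -/
def NS (A : ℂ → R) : Prop := IsPreconnected (core A)ᶜ

/-- a handle: two annuli plumbed at one crossing -/
structure Hd (o : Fm 2 R) (A B : ℂ → R) (δ : ℝ) : Prop where
  hA : An o A
  hB : An o B
  pos : 0 < δ
  small : 2 * δ ≤ 1
  box : ∀ z : ℂ, |z.re| < δ → |z.im| < δ → B z = A (Complex.I * z)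
  only : ∀ z w : ℂ, |z.im| < δ → |w.im| < δ → A z = B w → ∃ m : ℤ, |w.re - m| < δ

/-- genus at least three (and connected) -/
def G3 (o : Fm 2 R) : Prop := ∃ A : Fin 3 → ℂ → R, (∀ i, An o (A i)) ∧
  (∀ i k, i ≠ k → Disjoint (range (A i)) (range (A k))) ∧ IsPreconnected (⋃ i, core (A i))ᶜ

/-- `PERF` on `CM 2` -/
def PerfStmt : Prop := ∀ (R : CM 2) (o : Fm 2 R), Ori (𝓡 2) o → G3 o → ∀ h : Df R, Pos o h → KK o h

/-- `COC`: change of coordinates inside `KK`, no bound on the genus -/
def CocStmt : Prop := ∀ (R : CM 2) (o : Fm 2 R) (A B : ℂ → R), Ori (𝓡 2) o →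
  IsPreconnected (univ : Set R) → An o A → An o B → NS A → NS B →
  ∃ k : Df R, KK o k ∧ ∃ δ > (0 : ℝ), ∀ z : ℂ, |z.im| < δ → k (A z) = B z

/-- `HANDLE`: an annulus whose core does not separate `U` has a dual in `U` -/
def HdStmt : Prop := ∀ (R : CM 2) (o : Fm 2 R) (U : Set R) (A : ℂ → R), Ori (𝓡 2) o → IsOpen U →
  An o A → core A ⊆ U → IsPreconnected (U \ core A) →
  ∃ A' B δ, Hd o A' B δ ∧ (∀ s : ℝ, A' s = A s) ∧ range A' ⊆ U ∧ range B ⊆ U

end Crest.Agent.X212.H7
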