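import Crest.Agent.X212.H7.Out
import Crest.Agent.X212.Hel40.Stp
import Crest.Agent.X212.St29.Defs
import Crest.Agent.X212.Sep15.All
import Crest.Agent.X212.Bb31.Kil
import Crest.Agent.X212.Hel3.Col
import Crest.Agent.X212.Rgb37.Main
import Crest.Agent.X212.Orx52.All
import Crest.Agent.X212.Rgl52.Fib
import Crest.Agent.X212.Sym24.Main

/-!
# X212/H7/Main (helper7): a smooth hierarchy gives the closed four-manifold
-/

set_option autoImplicit false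

open Set
open scoped ContDiff Manifold
open Crest.Agent.X212.Dr59 Crest.Agent.X212.Int54 Crest.Agent.X212.Ext52
open Crest.Agent.X212.Sep15 (CM Q)
open Crest.Agent.X212.Bb31 (Fm)
open Crest.Agent.X212.Line51 (ang)
open Crest.Agent.X212.Hel40 (SmH MainStmt)
open Crest.Agent.X212.St29 (Yc)
open Crest.Agent.X212.Cab39 (Phi)

namespace Crest.Agent.X212.H7

theorem FT.two' {Y : CM 3} {U : Set Y} {τ : Fm 3 Y} (T : FT Y U τ) {o : Fm 3 Y} (ho : Ori (𝓡 3) o) :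
    ∃ β, Two Q Y o β U τ :=
  T.two Sep15.clo Sep15.base Bb31.regStmt Hel3.re Bb31.killStmt Orx52.perf0 Rgl52.fibStmt
    (Hel3.col Rgb37.top2) Rgb37.rgb o ho

theorem out_of_smH (hM : MainStmt) {Y : CM 3} {o : Fm 3 Y} (ho : Ori (𝓡 3) o) {Φ Ψ : Y → Circle}
    (h : SmH o Φ) (e : Ex (𝓡 3) univ (ang (𝓡 3) Φ - ang (𝓡 3) Ψ)) : Out Q Y o Ψ := by
  obtain ⟨R, b, U, hc, F, hU, T⟩ := hM Y o Φ h
  obtain ⟨β, T⟩ := T.two' ho
  exact T.out Sym24.joinStmt ho F hU e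

/-- the smooth hierarchy on the cable manifold (helper29) -/
def SmHStmt : Prop := ∀ k : KD, ¬ k.thick.IsUnknot → ∃ l : Yc k.toTube → ℝ,
  ContMDiff (𝓡 3) 𝓘(ℝ, ℝ) ∞ l ∧ ∀ o : Fm 3 (Yc k.toTube), Ori (𝓡 3) o →
    SmH o fun y => Phi k y * Circle.exp (l y)

/-- **the output of `H`** -/
def HStmt : Prop := ∀ k : KD, ¬ k.thick.IsUnknot → ∀ o : Fm 3 (Yc k.toTube), Ori (𝓡 3) o →
  Out Q (Yc k.toTube) o (Phi k)

theorem hStmt (hM : MainStmt) (hS : SmHStmt) : HStmt := fun k hk o ho => by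
  obtain ⟨l, l1, l2⟩ := hS k hk
  refine out_of_smH hM ho (l2 o ho) ((ex_df fun p _ => l1 p).congr fun p _ => ?_)
  rw [Pi.sub_apply, ← Line51.ang_exp (l1 p), sub_eq_iff_eq_add']
  exact Line51.ang_mul (Cab39.contMDiff_Phi k p) (Hel40.csm_exp (l1 p))

end Crest.Agent.X212.H7
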