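import Crest.Agent.X212.Kh11.Lev

/-!
# X212/H7/Nf0 (helper7): `Hk.Nf0Stmt`, simplices and skeleta
-/

set_option autoImplicit false
set_option linter.unusedSectionVars false

open Finset Classical

noncomputable section

namespace Crest.Agent.X212.H7

open Hp13 Hk
open Alg36 (Om mix)
open Kh11 (WS sctr_max sctr_min)
open Sf30 (xt mem_xt card_ins)

variable {P Q : Type} [PartialOrder P] [Fintype P] [PartialOrder Q] [Fintype Q]

/-! ### the simplex -/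

theorem mf_top {T : Ch P} (hT : ∀ c, c ≤ T) {n : ℕ} (h : T.1.card = n + 1) : Mf n {T} := by
  have k : ∀ D : Ch (Ch P), Mt {T} D → D.top = T := fun D ⟨a, a1, a2⟩ =>
    le_antisymm (hT _) (a2 ▸ Ch.le_top a1)
  refine ⟨fun D hD => h ▸ k D hD ▸ Alg36.card_le_top D, fun D hD => ?_,
    fun D hD hc => Alg36.conn_of_xt ?_, fun D hD => ?_⟩
  · rw [Alg36.sum_up_sd, k D hD, show univ.filter (T ≤ ·) = {T} from Finset.ext fun c => by
      simpa using ⟨le_antisymm (hT c), fun e => e.ge⟩, sum_singleton, Ch.sg, h]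
  · obtain ⟨C₁, h1, t1⟩ := Alg36.fill (D := D) (by rw [k D hD]; omega)
    obtain ⟨C₂, h2, t2⟩ := Alg36.fill (D := D.ins C₁ (mem_xt.1 h1).2) (by
      rw [card_ins h1, Alg36.top_ins _ t1, k D hD]; omega)
    obtain ⟨n2, c2⟩ := mem_xt.1 h2
    have h2' : C₂ ∈ xt D := mem_xt.2 ⟨fun k => n2 (mem_insert_of_mem k),
      fun F hF => c2 F (mem_insert_of_mem hF)⟩
    have hne : C₂ ≠ C₁ := fun k => n2 (k ▸ mem_insert_self _ _)
    have t : ∀ C, C ≤ D.top := fun C => k D hD ▸ hT C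
    rcases c2 C₁ (mem_insert_self _ _) with a | a
    · exact fun C hC C' hC' => (Alg36.rch_xt h2' h1 hC (a.lt_of_ne hne) (t _) (t _)).trans
        (Alg36.rch_xt h2' h1 hC' (a.lt_of_ne hne) (t _) (t _)).symm
    · exact fun C hC C' hC' => (Alg36.rch_xt h1 h2' hC (a.lt_of_ne hne.symm) (t _) (t _)).trans
        (Alg36.rch_xt h1 h2' hC' (a.lt_of_ne hne.symm) (t _) (t _)).symm
  · obtain ⟨E, h1, h2⟩ := Alg36.full D
    exact ⟨E, h1, by rw [h2, k D hD, h]⟩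

theorem mf_smp (σ : Ch P) {n : ℕ} (h : σ.1.card = n + 1) :
    Mf n (Subtype.val ⁻¹' {σ} : Set (Cq (σ.1 : Set P))) := by
  have e : ∀ C : Cq (σ.1 : Set P), (Ch.exists_up C.2).choose.up = C.1 := fun C =>
    (Ch.exists_up C.2).choose_spec
  obtain ⟨T, hT⟩ := Ch.exists_up (Q := (σ.1 : Set P)) (c := σ) fun _ k => k
  exact Mf.emb (f := fun C : Cq (σ.1 : Set P) => (Ch.exists_up C.2).choose) (A := {T})
    (fun a b => by rw [← Ch.up_le, e, e]; rfl) (fun b hb => Ch.up_inj ((e b).trans (hb.trans hT.symm)))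
    (fun _ _ x _ => ⟨⟨x.up, x.up_sub⟩, Ch.up_inj (e _)⟩)
    (mf_top (fun c => Ch.up_le.1 (by rw [hT]; exact c.up_sub)) (by rw [← Ch.card_up, hT, h]))

theorem desc_min {s t : St} {f : t.P → s.P} (h : Desc s t f) {σ : s.P} (k : IsMin σ) :
    ∃ v, f ⁻¹' {σ} = {v} ∧ IsMin v := by
  induction h with
  | refl => exact ⟨σ, rfl, k⟩
  | @step t f h ih =>
    obtain ⟨v, e, m⟩ := ih
    have j : ∀ c : Ch t.P, c.top = v → c = Ch.pt v := fun c hc => Ch.ext (eq_singleton_iff_unique_mem.2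
      ⟨hc ▸ c.top_mem, fun x hx => m.eq_of_le (hc ▸ Ch.le_top hx)⟩)
    refine ⟨Ch.pt v, Set.ext fun c => (Set.ext_iff.1 e c.top).trans
      ⟨j c, fun k => k ▸ Ch.top_pt v⟩, fun c hc => (j c ?_).ge⟩
    exact mem_singleton.1 (hc c.top_mem)

/-! ### the two-skeleton -/

variable {Γ : Type} [AddCommGroup Γ] {Y : Set P}

theorem card_cl (h : Mf 3 Y) {c : Ch P} (hc : c.top ∈ cl Y) :
    c.1.card ≤ 4 ∧ (c.top ∉ Y → IsUpperSet Y → c.1.card ≤ 3) := by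
  obtain ⟨a, ha, l⟩ := hc
  have k : ∀ x ∈ c.1, Cm a x := fun x hx => .inr ((Ch.le_top hx).trans l)
  have := h.card_le (c.ins a k) ⟨a, mem_insert_self _ _, ha⟩
  refine ⟨(Ch.card_le (c.le_ins a k)).trans this, fun n u => ?_⟩
  rw [Ch.ins_val, card_insert_of_notMem fun j => n (u (Ch.le_top j) ha)] at this
  omega

theorem sk_ex (hY : IsUpperSet Y) (hB : Bnd Γ Y) {m : Ch P → Ch P → Γ}
    (hm : CocOn (Sk id 3 ∩ Ch.top ⁻¹' cl Y) m) (he : ExOn (Ch.top ⁻¹' Om Y) m) :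
    ExOn (Sk id 3 ∩ Ch.top ⁻¹' cl Y) m := by
  set S : Set (Ch P) := Sk id 3 ∩ Ch.top ⁻¹' cl Y
  have low : IsLowerSet S := (sk_low monotone_id 3).inter (cl_low.preimage Ch.top_mono)
  let w : P → P → Γ := fun x y =>
    if h : x ≤ y then m (.pt x) (.pr x y h) - m (.pt y) (.pr x y h) else 0
  have l1 : ∀ {x y : P} (h : x ≤ y), Ch.pt x ≤ Ch.pr x y h := fun h => Ch.pt_le.2 (by simp)
  have l2 : ∀ {x y : P} (h : x ≤ y), Ch.pt y ≤ Ch.pr x y h := fun h => Ch.pt_le.2 (by simp)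
  have key : ∀ τ ∈ S, ∀ x ∈ τ.1, ∀ y ∈ τ.1, x ≤ y → w x y = m (.pt x) τ - m (.pt y) τ :=
    fun τ hτ x hx y hy h => by
      have l : Ch.pr x y h ≤ τ := insert_subset hx (singleton_subset_iff.2 hy)
      have k := low l hτ
      simp only [w, dif_pos h, hm _ (low (l1 h) k) _ k _ hτ (l1 h) l,
        hm _ (low (l2 h) k) _ k _ hτ (l2 h) l, add_sub_add_right_eq_sub]
  have hw : CocOn (cl Y) w := fun x _ y _ z hz a b => by
    have c : ∀ u ∈ (Ch.pr y z b).1, Cm x u := fun u hu =>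
      .inl (a.trans (Ch.bot_pr y z b ▸ Ch.bot_le hu))
    have k : (Ch.pr y z b).ins x c ∈ S := ⟨card_le_three, by
      rw [Set.mem_preimage, Alg36.top_ins _ (by rw [Ch.top_pr]; exact a.trans b), Ch.top_pr]
      exact hz⟩
    rw [key _ k x (by simp) z (by simp) (a.trans b), key _ k x (by simp) y (by simp) a,
      key _ k y (by simp) z (by simp) b, sub_add_sub_cancel]
  obtain ⟨k, hk⟩ := he
  obtain ⟨g, -, hg⟩ := Alg36.Bnd.eqD_cb hB ((coc_iff hY).2 hw) (g := fun x => k (.pt x))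
    fun x y h hx hy => by
      obtain ⟨l, c⟩ := (dp_iff hY).1 h
      have a : Ch.pr x y l ∈ Ch.top ⁻¹' Om Y := by rw [Set.mem_preimage, Ch.top_pr]; exact ⟨hy, c⟩
      have b := (om_low hY).preimage Ch.top_mono
      simp only [w, dif_pos l, hk _ (b (l1 l) a) _ a (l1 l), hk _ (b (l2 l) a) _ a (l2 l),
        sub_sub_sub_cancel_left]
  refine ⟨fun c => g c.top + m (.pt c.top) c, fun c hc e he l => ?_⟩
  have a := (eqD_iff hY).1 hg _ hc.2 _ he.2 (Ch.top_mono l)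
  have p := Ch.pt_le.2 c.top_mem
  rw [key e he _ (l c.top_mem) _ e.top_mem (Ch.top_mono l), hm _ (low p hc) _ hc _ he p l, cb] at a
  rw [eq_sub_of_add_eq' (eq_add_of_sub_eq a)]
  beta_reduce
  abel

/-! ### a closed surface minus discs -/

theorem cmp_clo {B C : Set P} (h : C ⊆ B) (k : ∀ x ∈ C, ∀ y ∈ B, Cm x y → y ∈ C) {y : P}
    (hy : y ∈ C) : cmp B y = cmp C y := Set.ext fun _ =>
  ⟨fun j => ⟨(j.2.in_clopen k hy).mem hy, j.2.in_clopen k hy⟩, fun j => ⟨h j.1, j.2.mono h⟩⟩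

theorem surf (hM : Mf 2 (Set.univ : Set Q)) {E : Set Q} (hE : IsLowerSet E)
    (hD : ∀ D, IsCmp Eᶜ D → Ctr D) : (Conn (Set.univ : Set Q) → Conn E) ∧
      ∀ ζ : Q → Q → Γ, CocOn Set.univ ζ → ExOn E ζ → ExOn Set.univ ζ := by
  have mc : ∀ D, IsCmp Eᶜ D → Conn (mix D) := fun D h =>
    Sf30.conn_mix2 (hM.mono (Set.subset_univ _)) (hD D h).conn (hD D h).eu.ge
  have tb : ∀ D, IsCmp Eᶜ D → ∀ c ∈ mix D, c.top ∈ D ∧ c.bot ∈ E := fun D h c ⟨⟨a, a1, a2⟩, b, b1, b2⟩ =>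
    ⟨h.clopen a2 (fun k => h.sub a2 (hE (Ch.le_top a1) k)) (.inl (Ch.le_top a1)), by_contra fun k =>
      b2 (h.clopen (h.clopen a2 k (.inr (Ch.bot_le a1))) (fun j => k (hE (Ch.bot_le b1) j))
        (.inl (Ch.bot_le b1)))⟩
  have pm : ∀ D, IsCmp Eᶜ D → ∀ e ∈ E, ∀ d ∈ D, ∀ l : e ≤ d, Ch.pr e d l ∈ mix D :=
    fun D h e he d hd l => ⟨⟨d, by simp, hd⟩, e, by simp, fun k => h.sub k he⟩
  refine ⟨fun hc x hx y hy => ?_, fun ζ hζ ⟨g, hg⟩ => ?_⟩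
  · refine (((hc x trivial y trivial).ind (p := fun y => (y ∈ E ∧ Rch E x y) ∨ (y ∉ E ∧ ∃ e ∈ E,
      Rch E x e ∧ ∃ d ∈ cmp Eᶜ y, e ≤ d)) (.inl ⟨hx, .rfl⟩) fun a _ b _ l => ?_).resolve_right
      fun k => k.1 hy).2
    by_cases hb : b ∈ E
    · have ha := hE l hb
      simp only [ha, hb, true_and, not_true, false_and, or_false]
      exact ⟨fun k => k.trans (.of_cm ha hb (.inl l)), fun k => k.trans (.of_cm hb ha (.inr l))⟩
    by_cases ha : a ∈ E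
    · simp only [ha, hb, true_and, not_true, false_and, or_false, false_or, not_false_iff]
      refine ⟨fun k => ⟨a, ha, k, b, mem_cmp_self hb, l⟩, fun ⟨e, he, r, d, hd, k⟩ => r.trans ?_⟩
      have h := isCmp_cmp (E := Eᶜ) hb
      have := (mc _ h _ (pm _ h e he d hd k) _ (pm _ h a ha b (mem_cmp_self hb) l)).map (F := E)
        (f := Ch.bot) fun u hu v hv j => .of_cm (tb _ h u hu).2 (tb _ h v hv).2 (.inr (Ch.bot_anti j))
      rwa [Ch.bot_pr, Ch.bot_pr] at this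
    · simp only [ha, hb, cmp_eq (Rch.of_cm (E := Eᶜ) ha hb (.inl l)), false_and]
  have ex : ∀ D, ∃ k : Q → Γ, IsCmp Eᶜ D → (∀ a ∈ D, ∀ b ∈ D, a ≤ b → ζ a b = k b - k a) ∧
      ∀ e ∈ E, ∀ d ∈ D, e ≤ d → ζ e d = k d - g e := fun D => by
    by_cases h : IsCmp Eᶜ D
    swap
    · exact ⟨0, fun k => (h k).elim⟩
    obtain ⟨k, hk⟩ := (hD D h).ex Γ ζ (cocOn_mono hζ (Set.subset_univ _))
    obtain ⟨κ, hκ⟩ : ∃ κ, ∀ c ∈ mix D, g c.bot + ζ c.bot c.top - k c.top = κ := by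
      rcases (mix D).eq_empty_or_nonempty with e | ⟨c₀, h0⟩
      · exact ⟨0, by simp [e]⟩
      refine ⟨_, fun c hc => (mc D h c hc c₀ h0).eq
        (g := fun c => g c.bot + ζ c.bot c.top - k c.top) fun u hu v hv l => ?_⟩
      have l1 := Ch.bot_anti l
      have l2 := Ch.top_mono l
      rw [hζ _ trivial _ trivial _ trivial l1 (u.bot_le_top.trans l2),
        hζ _ trivial _ trivial _ trivial u.bot_le_top l2, hg _ (tb D h v hv).2 _ (tb D h u hu).2 l1,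
        hk _ (tb D h u hu).1 _ (tb D h v hv).1 l2]
      abel
    refine ⟨fun x => k x + κ, fun _ => ⟨fun a ha b hb l => by simp [hk a ha b hb l],
      fun e he d hd l => ?_⟩⟩
    rw [← hκ _ (pm D h e he d hd l), Ch.bot_pr, Ch.top_pr]
    beta_reduce
    abel
  choose K hK using ex
  refine ⟨fun x => if x ∈ E then g x else K (cmp Eᶜ x) x, fun a _ b _ l => ?_⟩
  by_cases hb : b ∈ E
  · simp only [if_pos hb, if_pos (hE l hb), hg a (hE l hb) b hb l]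
  have h := hK _ (isCmp_cmp (E := Eᶜ) hb)
  by_cases ha : a ∈ E
  · simp only [if_pos ha, if_neg hb, h.2 a ha b (mem_cmp_self hb) l]
  · have r := Rch.of_cm (E := Eᶜ) ha hb (.inl l)
    simp only [if_neg ha, if_neg hb, cmp_eq r, h.1 a ⟨ha, r.symm⟩ b (mem_cmp_self hb) l]

theorem ws_val {G A : Set P} (h : A ⊆ G) : WS (Subtype.val ⁻¹' A : Set G) A Subtype.val :=
  .of_iso (fun _ k => k) (fun y k => ⟨⟨y, h k⟩, k, rfl⟩) fun _ _ _ _ => Iff.rfl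

/-- **NF-0** -/
theorem nf0Stmt (hN : NmStmt) : Nf0Stmt := by
  intro P _ _ Y t f hY h
  have ws := h.ws
  have mo := h.mono
  have hM : Mf 3 (f ⁻¹' (Ch.top ⁻¹' Y)) := mf_pre (Alg36.Mf.sd hY.mf) h
  have bal : ∀ σ : Ch P, σ.top ∈ Y → Bal (f ⁻¹' (Ch.top ⁻¹' Y)) {x | σ ≤ f x} := fun σ hσ => by
    have c : Ctr {x | σ ≤ f x} := (ws (Set.Ici σ)).ctr_iff.2 (sctr_min Set.self_mem_Ici fun _ k => k)
    have u : IsUpperSet {x | σ ≤ f x} := (isUpperSet_Ici σ).preimage mo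
    have s : {x | σ ≤ f x} ⊆ f ⁻¹' (Ch.top ⁻¹' Y) := fun _ k => hY.up (Ch.top_mono k) hσ
    exact ⟨u, s, (hN _).2.2 _ (hM.mono s) u c, c.eu⟩
  have vx : ∀ σ : Ch P, σ.1.card = 1 → ∃ v, f ⁻¹' {σ} = {v} ∧ IsMin v := fun σ k =>
    desc_min h fun c hc => (Ch.eq_of_card hc (k ▸ c.card_pos)).ge
  refine ⟨fun σ => ⟨(ws (Set.Iic σ)).ctr_iff.2 (sctr_max Set.self_mem_Iic fun _ k => k),
    (ws {σ}).ctr_iff.2 (sctr_max (m := σ) rfl fun _ k => k.le), fun n hn => ?_, bal σ, vx σ⟩,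
    fun m hm he => ?_, fun k U G V ⟨_, _, F⟩ n1 i => ?_⟩
  · exact mf_sub_eq rfl (mf_sub_pre (mf_smp σ hn) (lower_cq _) h)
  · have w := ws (Sk id 3 ∩ Ch.top ⁻¹' cl Y)
    have s : (Ch.top ⁻¹' Om Y : Set (Ch P)) ⊆ Sk id 3 ∩ Ch.top ⁻¹' cl Y := fun c k =>
      ⟨(card_cl hY.mf k.2).2 k.1 hY.up, k.2⟩
    obtain ⟨m₀, h1, h2⟩ := w.onto hm
    exact (exOn_iff_of_sub h2).2 (w.ex_pb (sk_ex hY.up hY.bnd2 h1 ((ws _).ex (cocOn_mono h1 s)
      ((exOn_iff_of_sub (exOn_mono h2 (Set.preimage_mono s))).1 he))))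
  have M := F.mem i
  have lw : ∀ j, IsLowerSet (G j) := fun j => (F.mem j).two.bd.low
  have c4 : ∀ x ∈ G i, (f x).1.card ≤ 4 := fun x hx => (card_cl hY.mf (sub_cl (M.sub hx))).1
  have e4 : ∀ x, ∀ y ∈ G i, x ≤ y → x ∉ Sk f 3 → f x = f y := fun x y hy l k =>
    Ch.eq_of_card (mo l) ((c4 y hy).trans (Nat.lt_of_not_le k))
  have nb : ∀ x ∈ G i, ¬ ∀ a ∈ G i, ∀ b ∈ G i, a ≤ b → f x ≤ f b → f x ≤ f a := fun x hx k =>
    M.nb.zero (bal (f x) (M.sub hx)) fun y hy => (M.conn x hx y hy).ind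
      (p := fun y => f x ≤ f y) le_rfl fun a ha b hb l => ⟨fun j => j.trans (mo l), k a ha b hb l⟩
  have hG : MfIn (G i) Set.univ := by
    rw [M.two.bd.sub.antisymm M.om]
    refine ((hN _).1 _ (rg_of M.two.up (hM.mono M.two.sub) fun x hx => ?_)).1
    simpa using M.two.tv _ isLowerSet_univ x ⟨M.om hx, M.sub (M.om hx)⟩ trivial
  have e : (Subtype.val ⁻¹' (G i ∩ Sk f 3) : Set (G i)) = Subtype.val ⁻¹' Sk f 3 :=
    Set.ext fun x => and_iff_right x.2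
  have w := ws_val (G := G i) (A := G i ∩ Sk f 3) Set.inter_subset_left
  have w' := ws_val (G := G i) subset_rfl
  rw [Subtype.coe_preimage_self] at w'
  obtain ⟨s1, s2⟩ := surf (Γ := ℤ) hG ((sk_low mo 3).preimage (val_mono (G i))) (by
    rintro _ ⟨x, hx, rfl⟩
    have := (ws_val (G := G i) (A := G i \ Sk f 3) Set.sdiff_subset).cmp (x := x) ⟨x.2, hx⟩
    rw [show (Subtype.val ⁻¹' (G i \ Sk f 3) : Set (G i)) = (Subtype.val ⁻¹' Sk f 3)ᶜ from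
      Set.ext fun x => and_iff_right x.2] at this
    have k : ∀ y ∈ f ⁻¹' {f x}, y ∉ Sk f 3 := fun y hy j => hx (by
      rw [Set.mem_preimage, Sk, Set.mem_ofPred_eq, ← hy]; exact j)
    rw [this.ctr_iff, cmp_clo (B := G i \ Sk f 3) (C := G i ∩ f ⁻¹' {f x})
      (fun y hy => ⟨hy.1, k y hy.2⟩)
      (fun a ha b hb l => ⟨hb.1, l.elim (fun l => (e4 a b hb.1 l (k a ha.2)).symm.trans ha.2)
        fun l => (e4 b a ha.1 l hb.2).trans ha.2⟩) ⟨x.2, rfl⟩,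
      ← cmp_clo (B := (⋃ j, G j) ∩ f ⁻¹' {f x}) (Set.inter_subset_inter_left _ (Set.subset_iUnion G i))
        (fun a ha b hb l => ⟨?_, hb.2⟩) ⟨x.2, rfl⟩]
    · exact n1 _ ((c4 x x.2).antisymm (Nat.lt_of_not_le hx)) _ (isCmp_cmp ⟨Set.mem_iUnion.2 ⟨i, x.2⟩, rfl⟩)
    · obtain ⟨j, hj⟩ := Set.mem_iUnion.1 hb.1
      exact l.elim (fun l => by_contra fun n => Set.disjoint_left.1
        (F.dj i j fun e => n (e ▸ hj)) ha.1 (lw j l hj)) fun l => lw i l ha.1)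
  have cn : Conn (G i ∩ Sk f 3) := w.conn_iff.1 (e ▸ s1 (w'.conn_iff.2 M.conn))
  have n3 : (G i ∩ Sk f 3).Nonempty := by_contra fun n => by
    obtain ⟨x, hx⟩ := M.ne
    exact nb x hx fun a ha b hb l j => j.trans (e4 a b hb l fun k => n ⟨a, ha, k⟩).ge
  refine ⟨cn, n3, by_contra fun n => ?_, Set.disjoint_left.2 fun x hx k => ?_, fun ζ h1 h2 =>
    w'.ex h1 (s2 _ (w'.coc_pb h1) (e ▸ w.ex_pb h2))⟩
  · obtain ⟨x, hx⟩ := n3
    refine nb x hx.1 fun a ha b hb l j => ?_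
    by_cases k : a ∈ Sk f 3
    · exact ((cn x hx a ⟨ha, k⟩).eq (g := f) fun u hu v hv l => Ch.eq_of_card (mo l)
        (hv.2.trans (Nat.lt_of_not_le fun j => n ⟨u, hu.1, j⟩))).le
    · exact j.trans (e4 a b hb l k).ge
  · obtain ⟨v, e, m⟩ := vx (f x) (le_antisymm k (f x).card_pos)
    obtain ⟨y, y1, -, y2⟩ := (M.two.tv {f x} (fun a b l j => Ch.eq_of_card (j ▸ l)
      (k.trans b.card_pos)) x ⟨hx, M.sub hx⟩ rfl).ne
    have a : x = v := (Set.ext_iff.1 e x).1 rfl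
    exact M.two.bd.not hx (a ▸ (Set.ext_iff.1 e y).1 y2 ▸ y1)

end Crest.Agent.X212.H7
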