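import Crest.Agent.X212.H7.Two
import Crest.Agent.X212.Hel40.Ang
import Crest.Agent.X212.Box46.Box

/-!
# X212/H7/Out (helper7): from two caps to the closed four-manifold
-/

set_option autoImplicit false
set_option linter.unusedSectionVars false

open Set Filter Topology Function Real
open scoped ContDiff Manifold Crest.Agent.X212.Sym24
open Crest.Agent.R208.F Crest.Agent.X212.Dr59 Crest.Agent.X212.Cyl58
open Crest.Agent.X212.Int54 hiding cy dt
open Crest.Agent.X212.Sep15 (EE IR CM End Box slab mem_slab isClosed_slab)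
open Crest.Agent.X212.Bb31 (Fm Cy SP AA JoinStmt)
open Crest.Agent.X212.Sym24 (dT)
open Crest.Agent.X212.Line51 (ang)
open Crest.Agent.X212.Hel40 (ar bt)

noncomputable section

namespace Crest.Agent.X212.H7

variable {Y : CM 3} {R : CM 2} {b : R × ℝ → Y} {Φ : Y → Circle}

/-- the step -/
def stp (y : ℝ) : ℝ := 2 * π * smoothTransition (y + 2⁻¹)

theorem stp_cd : ContDiff ℝ ∞ stp :=
  contDiff_const.mul (smoothTransition.contDiff.comp (contDiff_id.add contDiff_const))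

theorem stp_mono : Monotone stp := fun _ _ h =>
  mul_le_mul_of_nonneg_left (smoothTransition.monotone (by gcongr)) two_pi_pos.le

theorem stp_lo {y : ℝ} (h : y ≤ -2⁻¹) : stp y = 0 := by
  rw [stp, smoothTransition.zero_of_nonpos (by linarith), mul_zero]

theorem stp_hi {y : ℝ} (h : 2⁻¹ ≤ y) : stp y = 2 * π := by
  rw [stp, smoothTransition.one_of_one_le (by linarith), mul_one]

theorem stp_pos : ∃ y ∈ Ioo (-2⁻¹ : ℝ) 2⁻¹, 0 < deriv stp y := by
  obtain ⟨y, h1, h2⟩ := exists_deriv_eq_slope stp (by norm_num : (-2⁻¹ : ℝ) < 2⁻¹)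
    stp_cd.continuous.continuousOn (stp_cd.differentiable ne0).differentiableOn
  refine ⟨y, h1, ?_⟩
  rw [h2, stp_lo le_rfl, stp_hi le_rfl]
  exact div_pos (by linarith [pi_pos]) (by norm_num)

/-- a circle map homotopic to `Φ` which is constant off a thin slab -/
theorem Fib.thin (F : Fib Φ b) : ∃ u : Y → Circle, ContMDiff (𝓡 3) (𝓡 1) ∞ u ∧
    Ex (𝓡 3) univ (ang (𝓡 3) u - ang (𝓡 3) Φ) ∧
    (∀ p, pm (IR 2) (𝓡 3) b (ang (𝓡 3) u) p = deriv stp p.2 • dT (EE 2)) ∧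
    ∀ p ∉ slab b (Icc (-2⁻¹) 2⁻¹), ang (𝓡 3) u p = 0 := by
  let l : Y → ℝ := extend b (fun p => stp p.2 - (π + 2 * arctan p.2)) 0
  have l1 : ∀ p, l (b p) = stp p.2 - (π + 2 * arctan p.2) := F.box.inj.extend_apply _ _
  have n : ∀ p ∉ range b, Φ p = 1 := fun p hp => by simpa [F.rg] using hp
  have l2 : ∀ p ∉ slab b (Icc (-2⁻¹) 2⁻¹), l p = -ar (Φ p) := fun p hp => by
    by_cases k : p ∈ range b
    · obtain ⟨q, rfl⟩ := k
      rw [mem_slab F.box, mem_Icc, not_and_or, not_le, not_le] at hp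
      rw [l1, F.eq]
      have h1 := neg_pi_div_two_lt_arctan q.2
      rcases hp with hp | hp
      · have h2 : arctan q.2 < 0 := arctan_zero ▸ arctan_strictMono (by linarith)
        rw [stp_lo hp.le, cay, Hel40.ar_exp (abs_lt.2 ⟨by linarith, by linarith⟩), zero_sub]
      · rw [stp_hi hp.le, show cay q.2 = _ from Hel40.cay_eq q.2, Hel40.ar_exp (abs_lt.2
          ⟨Hel40.bt_gt (by linarith), (Hel40.bt_mem _).2.trans pi_pos⟩), bt]
        ring
    · rw [n p k, show l p = 0 from extend_apply' _ _ _ k]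
      simp [ar]
  have op := (isClosed_slab F.box (isCompact_Icc (a := (-2⁻¹ : ℝ)) (b := 2⁻¹))).isOpen_compl
  have sl : ContMDiff (𝓡 3) 𝓘(ℝ, ℝ) ∞ l := fun p => by
    by_cases k : p ∈ range b
    · obtain ⟨q, rfl⟩ := k
      refine Cyl58.contMDiffAt_of_comp (F.box.loc q) ?_
      rw [show l ∘ b = _ from funext l1]
      exact ((stp_cd.sub Hel40.contDiff_cayA).contMDiff.comp contMDiff_snd) q
    · refine (Hel40.contMDiffAt_log (l := fun y => ar (Φ y)) ((Hel40.continuousAt_ar ?_).comp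
        F.sm.continuous.continuousAt) (by simpa only [Hel40.exp_ar] using F.sm p)).neg.congr_of_eventuallyEq
        (eventually_of_mem (op.mem_nhds fun h => k (Sep15.slab_subset _ _ h)) l2)
      rw [n p k]
      norm_num
  have se := fun p => Hel40.csm_exp (sl p)
  refine ⟨Φ * fun y => Circle.exp (l y), fun p => (F.sm p).mul (se p),
    (ex_df fun p _ => sl p).congr fun p _ => ?_, fun p => ?_, fun p hp => ?_⟩
  · rw [Pi.sub_apply, Line51.ang_mul (F.sm p) (se p), Line51.ang_exp (sl p), add_sub_cancel_left]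
  · rw [Line51.pm_ang ((F.sm _).mul (se _)) ((F.box.contMDiff _).mdifferentiableAt ne0),
      show (Φ * fun y => Circle.exp (l y)) ∘ b = fun p => Circle.exp (stp p.2) from funext fun p => by
        simp only [comp_apply, Pi.mul_apply, l1, F.eq, cay, ← Circle.exp_add, add_sub_cancel],
      Line51.ang_exp (f := fun p : R × ℝ => stp p.2) ((stp_cd.contMDiff.comp contMDiff_snd) p)]
    exact Sym24.df_comp_snd (stp_cd.differentiable ne0 _).hasDerivAt
  · rw [Line51.ang_congr (h := 1) (eventually_of_mem (op.mem_nhds hp) fun q hq => by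
      simp [l2 q hq, Hel40.exp_ar]), Line51.ang_one, Pi.zero_apply]

/-- **OUT** -/
theorem Two.out {P : ∀ Y : CM 3, End Y → Prop} (hJ : JoinStmt) [Nonempty R] {o β : Fm 3 Y}
    {U : Set Y} (ho : Ori (𝓡 3) o) (F : Fib Φ b) (hU : slab b (Ioo (-1) 1) ⊆ U)
    (T : Two P Y o β U (ang (𝓡 3) Φ)) {Ψ : Y → Circle}
    (e : Ex (𝓡 3) univ (ang (𝓡 3) Φ - ang (𝓡 3) Ψ)) : Out P Y o Ψ := by
  obtain ⟨m, ⟨C₁, p1, c1⟩, C₂, p2, c2⟩ := T
  obtain ⟨X, ⟨J⟩⟩ := Sep15.joStmt Y C₁ C₂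
  obtain ⟨oR, hR, c⟩ := Box46.exists_oR ho F.box
  obtain ⟨u, u1, u2, u3, u4⟩ := F.thin
  have sp : SP oR b β (Ioo (-1) 1) := fun x y hy => (Bb31.pos_box' F.box c (by positivity)
    (pm_cay F.box F.sm F.eq (x, y)) (m.1.dg _ trivial)).1 (m.2.2 _ (hU ((mem_slab F.box).2 hy)))
  have cu : Cl (𝓡 3) 1 univ (ang (𝓡 3) u) := Line51.cl_ang fun p _ => u1 p
  obtain ⟨O, o1, o2, o3⟩ := hJ Y R C₁ C₂ X J o β _ _ _ oR b (deriv stp) ho hR c1 c2 m m m.1 F.box c
    sp cu (fun _ => stp_mono.deriv_nonneg) u3 u4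
  have k : ∀ x, ∀ y ∈ Ioo (-1 : ℝ) 1, 0 < deriv stp y → 0 < rat o (β * ang (𝓡 3) u) (b (x, y)) :=
    fun x y hy h => (Bb31.pos_box' F.box c h (u3 _) (m.1.dg _ trivial)).2 (sp x y hy)
  obtain ⟨y, y1, y2⟩ := stp_pos
  have := ho.finCpt
  have := ho.openPos
  refine ⟨C₁, C₂, X, J, O, β, u, p1, p2, o1, o2, u1, u2.trans e, m.1, (ho.contMDiff_rat fun x =>
    m.1.sm.mul cu.sm x trivial).continuous.integral_pos_of_hasCompactSupport_nonneg_nonzero
    (HasCompactSupport.of_compactSpace _) (fun p => ?_)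
    (k (Classical.arbitrary R) y (i2 (Ioo_subset_Icc_self y1)) y2).ne', o3⟩
  have z : ang (𝓡 3) u p = 0 → 0 ≤ rat o (β * ang (𝓡 3) u) p := fun h => by simp [rat, h]
  by_cases hp : p ∈ slab b (Icc (-2⁻¹) 2⁻¹)
  · obtain ⟨⟨x, y⟩, hy, rfl⟩ := hp
    rcases (stp_mono.deriv_nonneg (x := y)).eq_or_lt with h | h
    · exact z (Bb31.zero_of_pm (F.box.loc _) (by rw [u3, ← h, zero_smul]))
    · exact (k x y (i2 hy.2) h).le
  · exact z (u4 p hp)

end Crest.Agent.X212.H7
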