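import Crest.Agent.X212.H7.Defs
import Crest.Agent.X212.Bb31.Fin
import Crest.Agent.X212.Sep15.Cm
import Crest.Agent.X212.Orx52.Sw

/-!
# X212/H7/Reg (helper7): caps through a regluing by an element of `KK`
-/

set_option autoImplicit false
set_option linter.unusedSectionVars false

open Set Filter Topology Function
open scoped ContDiff Manifold Crest.Agent.X212.Sym24
open Crest.Agent.R208.F Crest.Agent.X212.Dr59 Crest.Agent.X212.Cyl58
open Crest.Agent.X212.Int54 hiding cy dt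
open Crest.Agent.X212.Sep15 (EE IR CM End Box slab px Rg mem_slab slab_mono isClosed_slab)
open Crest.Agent.X212.Bb31 (Fm Df Pos Cy SP Z2 Dy AA Cap OC Clo Mt RegStmt ReStmt OE)
open Crest.Agent.X212.Sym24 (pu dT dt nc up)
open Crest.Agent.X212.Orx52 (cy ldp oriOn ori_cy same_pm same_of_pm same_trans same_symm)

noncomputable section

namespace Crest.Agent.X212.H7

variable {Y Y' : CM 3} {R R' : CM 2}

/-! ### algebra -/

theorem rat_smul_pos {n : ℕ} {M : Type} {o c d : Fm n M} {p : M} {f : ℝ} (hf : 0 < f)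
    (e : c p = f • d p) : 0 < rat o c p ↔ 0 < rat o d p := by
  rw [rat, rat, e, map_smul, smul_eq_mul, mul_div_assoc, mul_pos_iff_of_pos_left hf]

theorem aa_neg (o β : Fm 3 Y) (U : Set Y) (τ : Fm 3 Y) : AA (-o) β U (-τ) = AA o β U τ := by
  ext a
  simp only [AA, mem_ofPred_eq, mul_neg, rat_neg, rat_neg_left, neg_neg]

theorem aa_sub {o β β' τ : Fm 3 Y} {U : Set Y} (h : β' ∈ AA o β U τ) : AA o β' U τ ⊆ AA o β U τ := by
  rintro a ⟨h1, ⟨C, c1, c2, c3⟩, h3⟩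
  obtain ⟨-, ⟨D, d1, d2, d3⟩, -⟩ := h
  exact ⟨h1, ⟨C ∪ D, c1.union d1, union_subset c2 d2, fun p hp =>
    (c3 p fun k => hp (.inl k)).trans (d3 p fun k => hp (.inr k))⟩, h3⟩

theorem aa_self {o β τ : Fm 3 Y} {U : Set Y} (h : Z2 β) (h' : ∀ p ∈ U, 0 < rat o (β * τ) p) :
    β ∈ AA o β U τ := ⟨h, ⟨∅, isClosed_empty, empty_subset _, fun _ _ => rfl⟩, h'⟩

theorem aa_mono {o β τ : Fm 3 Y} {U V : Set Y} (h : β ∈ AA o β U τ) (s : V ⊆ U) :
    AA o β V τ ⊆ AA o β U τ := by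
  rintro a ⟨h1, ⟨C, c1, c2, c3⟩, h3⟩
  refine ⟨h1, ⟨C, c1, c2.trans s, c3⟩, fun p hp => ?_⟩
  by_cases k : p ∈ C
  · exact h3 p (c2 k)
  · have := h.2.2 p hp
    rwa [rat, Pi.mul_apply, ← c3 p k] at this

theorem cap_mono {P : ∀ Y : CM 3, End Y → Prop} {o : Fm 3 Y} {A A' : Set (Fm 3 Y)} (s : A' ⊆ A)
    (h : Cap P Y o A) : Cap P Y o A' :=
  let ⟨C, h1, O, h2, h3, h4⟩ := h
  ⟨C, h1, O, h2, h3, fun c ι _ ζ β a b d => h4 c ι ζ β a (fun q => s (b q)) d⟩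

theorem cap_neg {P : ∀ Y : CM 3, End Y → Prop} {o : Fm 3 Y} {A A' : Set (Fm 3 Y)}
    (s : ∀ a ∈ A', -a ∈ A) (h : Cap P Y o A) : Cap P Y o A' := by
  obtain ⟨C, h1, O, h2, h3, h4⟩ := h
  have n : ∀ {c : ℝ} {a : Fm 4 (Bb31.sh C c).X} {b : Fm 3 Y}, Bb31.En (Bb31.sh C c).j a b →
      Bb31.En (Bb31.sh C c).j (-a) (-b) := fun ⟨ε, hε, k⟩ => ⟨ε, hε, fun p hp => by
    rw [pm_neg, Pi.neg_apply, k p hp]; exact (map_neg up _).symm⟩
  refine ⟨C, h1, O, h2, h3, fun c ι _ ζ β a b d => ?_⟩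
  obtain ⟨_, rfl, v, v1, v2, la, l1, l2, l3⟩ := h4 c ι (fun q => -ζ q) (fun q => -β q)
    (fun q => (a q).neg) (fun q => s _ (b q)) fun q => n (d q)
  refine ⟨0, rfl, -v, v1.neg, neg_zero (G := Fm 3 Y) ▸ n v2, fun q => -la q,
    fun q => ⟨(l1 q).sm.neg, (l1 q).dg.neg⟩, fun q => ?_, fun q r x hx => ?_⟩
  · funext x
    have := congrFun (l2 q) x
    simp only [Sym24.sl, pm_neg, Pi.neg_apply, map_neg, Pi.zero_apply] at this ⊢
    rw [this, neg_zero]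
  · have := l3 q r x hx
    have e : ∀ q, ζ q + -v - dM (𝓡 4) (-la q) = -(-ζ q + v - dM (𝓡 4) (la q)) := fun q => by
      rw [dM_neg]; abel
    simp only [e, neg_mul_neg]
    exact this

/-! ### level preserving maps -/

theorem pb_dT {F : R' × ℝ → R × ℝ} {p : R' × ℝ} (hF : MDifferentiableAt (IR 2) (IR 2) F p)
    {g : ℝ → ℝ} {c : ℝ} (e : ∀ q, (F q).2 = g q.2) (hg : HasDerivAt g c p.2) :
    pb (mf (IR 2) (IR 2) F p : EE 2 × ℝ →ₗ[ℝ] EE 2 × ℝ) (dT (EE 2)) = c • dT (EE 2) := by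
  have h := pm_df (g := Prod.snd) hF mdifferentiableAt_snd
  rw [Sym24.df_snd, show Prod.snd ∘ F = fun q => g q.2 from funext e, Sym24.df_comp_snd hg] at h
  exact h

theorem pm_box {b : R × ℝ → Y} (hb : Box b) {F : R' × ℝ → R × ℝ} {p : R' × ℝ}
    (hF : MDifferentiableAt (IR 2) (IR 2) F p) (τ : Fm 3 Y) : pm (IR 2) (𝓡 3) (b ∘ F) τ p =
      pb (mf (IR 2) (IR 2) F p : EE 2 × ℝ →ₗ[ℝ] EE 2 × ℝ) (pm (IR 2) (𝓡 3) b τ (F p)) :=
  (pm_comp ((hb.contMDiff _).mdifferentiableAt ne0) hF).symm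

/-! ### `KK` preserves orientations -/

theorem pos_comp {o : Fm 2 R} {f g : Df R} (hf : Pos o f) (hg : Pos o g) : Pos o (f ∘ g) :=
  Orx52.Pos.comp hf hg (fun y _ => f.isLocalDiffeomorph y) (fun y _ => g.isLocalDiffeomorph y)
    (mapsTo_univ _ _)

theorem pos_neg {o : Fm 2 R} {f : R → R} (hf : Pos o f) : Pos (-o) f := Orx52.Pos.neg hf

theorem Iso.track {φ : ℝ → Df R} (h : Iso φ) {χ : ℝ → ℝ} (hχ : ContDiff ℝ ∞ χ) :
    ∃ F : (R × ℝ) ≃ₘ^∞⟮IR 2, IR 2⟯ (R × ℝ), ∀ p, F p = (φ (χ p.2) p.1, p.2) :=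
  Sep15.exists_track (φ := fun t => φ (χ t))
    (h.sm.comp ((hχ.contMDiff.comp contMDiff_snd).prodMk contMDiff_fst))
    (fun _ => (φ _).bijective) fun _ => (φ _).isLocalDiffeomorph

theorem tp_pm_cy {F : R × ℝ → R × ℝ} {p : R × ℝ} (hF : MDifferentiableAt (IR 2) (IR 2) F p)
    (e : ∀ q, (F q).2 = q.2) (o : Fm 2 R) : tp _ (pm (IR 2) (IR 2) F (cy o) p) =
      Sym24.kap (EE 2) * tp _ (pm (𝓡 2) (𝓡 2) (fun x => (F (x, p.2)).1) o p.1) := by
  rw [Orx52.pm_cy hF, show Prod.snd ∘ F = Prod.snd from funext e, Sym24.df_snd, dt, Sym24.tp_dT_mul]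
  congr 2
  have h1 : MDifferentiableAt (𝓡 2) (IR 2) (fun x : R => (x, p.2)) p.1 :=
    mdifferentiableAt_id.prodMk mdifferentiableAt_const
  have := pm_comp (a := o) (f := fun x : R => (x, p.2)) (g := Prod.fst ∘ F)
    (mdifferentiableAt_fst.comp p hF) h1
  rwa [Sym24.pm_inl] at this

theorem cy_vert {a : R × ℝ → Ext (EE 2 × ℝ)} (ha : Ori (IR 2) a) {o : Fm 2 R} (ho : Ori (𝓡 2) o)
    {s : ℝ} (h : ∀ x, 0 < tp _ (a (x, s)) * tp _ (cy o (x, s))) : SameOn a (cy o) univ :=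
  fun p _ => Orx52.same_of_pt (s := {p.1} ×ˢ univ) (oriOn ha _) (oriOn (ori_cy ho) _)
    (isPreconnected_singleton.prod isPreconnected_univ) (x := (p.1, s)) ⟨rfl, trivial⟩ (h _) p
    ⟨rfl, trivial⟩

theorem pos_of_cy {F : R × ℝ → R × ℝ} {p : R × ℝ} (hF : MDifferentiableAt (IR 2) (IR 2) F p)
    (e : ∀ q, (F q).2 = q.2) {o : Fm 2 R} :
    0 < tp _ (pm (IR 2) (IR 2) F (cy o) p) * tp _ (cy o p) ↔
      0 < tp _ (pm (𝓡 2) (𝓡 2) (fun x => (F (x, p.2)).1) o p.1) * tp _ (o p.1) := by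
  rw [tp_pm_cy hF e, Orx52.tp_cy, mul_mul_mul_comm,
    mul_pos_iff_of_pos_left (mul_self_pos.2 Sym24.kap_ne)]

theorem Iso.pos {φ : ℝ → Df R} (h : Iso φ) {o : Fm 2 R} (ho : Ori (𝓡 2) o) (t : ℝ) :
    Pos o (φ t) := fun x _ => by
  obtain ⟨F, e⟩ := h.track contDiff_id
  have m : ∀ p, MDifferentiableAt (IR 2) (IR 2) F p := fun p => F.contMDiff.mdifferentiableAt ne0
  have e' : ∀ q, (F q).2 = q.2 := fun q => by rw [e]
  have e2 : ∀ s, (fun x => (F (x, s)).1) = φ s := fun s => funext fun x => by rw [e]; rfl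
  have := cy_vert (Orx52.ori_pm (ori_cy ho) F.isLocalDiffeomorph) ho (s := 0) (fun y => by
    rw [pos_of_cy (m _) e', e2, show (φ 0 : R → R) = id from funext h.zero, pm_id]
    exact ho.same univ y trivial) (x, t) trivial
  rwa [pos_of_cy (m _) e', e2] at this

theorem KK.pos {o : Fm 2 R} (ho : Ori (𝓡 2) o) {h : Df R} (k : KK o h) : Pos o h := by
  induction k with
  | @comm h s t a b c =>
    rw [show (h : R → R) = s.symm ∘ (t.symm.trans s).trans t from funext c]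
    exact pos_comp (pos_symm a) (pos_comp (g := t.symm.trans s) b (pos_comp a (pos_symm b)))
  | @iso h φ a c =>
    rw [show (h : R → R) = φ 1 from funext c]
    exact a.pos ho 1
  | @mul f g h _ _ c a b =>
    rw [show (h : R → R) = f ∘ g from funext c]
    exact pos_comp a b

theorem KK.neg {o : Fm 2 R} {h : Df R} (k : KK o h) : KK (-o) h := by
  induction k with
  | comm s t a b c => exact .comm s t (pos_neg a) (pos_neg b) c
  | iso φ a c => exact .iso φ a c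
  | mul _ _ c a b => exact .mul a b c

/-! ### orientations through a regluing -/

variable {b : R × ℝ → Y} {h : Df R} {b' : R × ℝ → Y'}

theorem pos_px {o : Fm 2 R} (hh : Pos o h) :
    Orx52.Pos (IR 2) (IR 2) (px h) univ (cy o) (cy o) := by
  have := Orx52.Pos.cy hh (fun y _ => h.isLocalDiffeomorph y) (g := id) (g' := fun _ => 1)
    (t := univ) (fun x _ => hasDerivAt_id x) fun _ _ => one_pos
  rwa [univ_prod_univ] at this

theorem org (G : Rg b h b') {o : Fm 3 Y} {oR : Fm 2 R} (ho : Ori (𝓡 3) o) (hR : Ori (𝓡 2) oR)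
    (hc : Cy oR o b) (hh : Pos oR h) : ∃ o' : Fm 3 Y', Ori (𝓡 3) o' ∧ Cy oR o' b' ∧
      SameOn (pm (𝓡 3) (𝓡 3) G.φ o') o G.φ.source := by
  obtain ⟨-, O, k1, -, k2, k3⟩ := Orx52.exists_ori_seam G.φ (oriOn ho _) (q := fun _ : Unit => b')
    (fun _ => G.o'.loc) (ori_cy hR)
    (fun x hx => by
      rw [G.tgt, notMem_compl_iff] at hx
      exact ⟨(), Sep15.slab_subset _ _ hx⟩)
    (fun _ => Orx52.dense_ne.mono fun _ => G.b'_mem.2) fun _ p hp => by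
      have h0 := G.b'_mem.1 hp
      rcases h0.lt_or_gt with k | k
      · exact ⟨b, G.o.loc p, G.b_mem.2 h0,
          ((isOpen_lt continuous_snd continuous_const).eventually_mem k).mono
            fun q a => (G.lo q a).symm, Orx52.Pos.mono hc (subset_univ _)⟩
      · have l := (Sep15.isOE_px (IsOE.of_diffeo h.symm)).loc
        refine ⟨b ∘ px h.symm, (G.o.px h.symm).loc p, G.b_mem.2 h0,
          ((isOpen_lt continuous_const continuous_snd).eventually_mem k).mono fun q a => ?_,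
          (Orx52.Pos.comp hc (pos_px (pos_symm hh)) (fun y _ => G.o.loc y) (fun y _ => l y)
            (mapsTo_univ _ _)).mono (subset_univ _)⟩
        exact ((G.hi (px h.symm q) a).trans (by simp [px])).symm
  exact ⟨O, k1, k3 (), k2⟩

theorem pm_pm_symm (G : Rg b h b') {p : Y} (hp : p ∈ G.φ.source) (a : Fm 3 Y) :
    pm (𝓡 3) (𝓡 3) G.φ (pm (𝓡 3) (𝓡 3) G.φ.symm a) p = a p :=
  Orx52.pm_pm_inv (ldp G.φ hp) (Orx52.symm_comp G.φ hp) a

theorem exists_pre (G : Rg b h b') {s : Set ℝ} (h0 : (0 : ℝ) ∈ s) {q : Y'} (hq : q ∉ slab b' s) :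
    ∃ p ∈ G.φ.source, p ∉ slab b s ∧ G.φ p = q := by
  have h1 : q ∈ G.φ.target := G.symm.mem_of_notMem h0 hq
  refine ⟨G.φ.symm q, G.φ.map_target h1, fun k => hq ?_, G.φ.right_inv h1⟩
  rw [← G.φ.right_inv h1]
  exact (G.mem_slab (G.φ.map_target h1)).2 k

theorem exists_dy (hb : Box b) (τ : Fm 3 Y) : ∃ σ : Fm 3 Y, Dy b σ (Ioo (-1) 1) ∧
    ∀ p ∉ slab b (Ioo (-1) 1), σ p = τ p := by
  obtain ⟨A, e, -⟩ := (OE.of_oe hb).exists_pf (I := 𝓡 3) (dt (EE 2) R)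
  refine ⟨glue (slab b (Ioo (-1) 1)) A τ, fun x y hy => ⟨1, one_pos, ?_⟩, fun p hp => if_neg hp⟩
  rw [one_smul, pm_congr_right (glue_left ((mem_slab hb).2 hy))]
  exact e _ trivial

theorem i0 : (0 : ℝ) ∈ Ioo (-1 : ℝ) 1 := by norm_num
theorem i1 : (0 : ℝ) ∈ Icc (-2⁻¹ : ℝ) 2⁻¹ := by norm_num
theorem i2 : Icc (-2⁻¹ : ℝ) 2⁻¹ ⊆ Ioo (-1) 1 := Icc_subset_Ioo (by norm_num) (by norm_num)

/-- `REG*` for the class `KK` -/
theorem regK {P : ∀ Y : CM 3, End Y → Prop} (hP : Clo P) (hR : RegStmt) (hE : ReStmt)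
    [hc : PreconnectedSpace R] {oR : Fm 2 R} {h : Df R} (k : KK oR h) :
    ∀ {Y Y' : CM 3} {b : R × ℝ → Y} {b' : R × ℝ → Y'} (G : Rg b h b') {o β : Fm 3 Y} {U : Set Y}
      {τ : Fm 3 Y} {o' β' : Fm 3 Y'} {U' : Set Y'} {τ' : Fm 3 Y'},
      Mt G oR o β U τ o' β' U' τ' → Cap P Y o (AA o β U τ) → Cap P Y' o' (AA o' β' U' τ') := by
  induction k with
  | comm s t a c e =>
    intro Y Y' b b' G o β U τ o' β' U' τ' M
    exact hR P hP Y Y' R b _ b' G s t oR o β U τ o' β' U' τ' hc a c e M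
  | @iso h φ a e =>
    intro Y Y' b b' G o β U τ o' β' U' τ' M
    obtain ⟨F, eF⟩ := a.track (χ := fun y => Real.smoothTransition (2 * y))
      (Real.smoothTransition.contDiff.comp (contDiff_const.mul contDiff_id))
    obtain ⟨Ψ, e1, e2⟩ := G.exists_iso F (α := -2⁻¹) (β := 2⁻¹) (by norm_num) (by norm_num)
      (fun p => by rw [eF])
      (fun p hp => by rw [eF, Real.smoothTransition.zero_of_nonpos (by linarith), a.zero])
      fun p hp => by rw [eF, Real.smoothTransition.one_of_one_le (by linarith), px, e]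
    have m : ∀ p, MDifferentiableAt (IR 2) (IR 2) F p := fun p => F.contMDiff.mdifferentiableAt ne0
    have e3 : ∀ p ∉ slab b (Icc (-2⁻¹) 2⁻¹), ∀ c, pm (𝓡 3) (𝓡 3) Ψ c p = pm (𝓡 3) (𝓡 3) G.φ c p :=
      fun p hp c => pm_congr (eventually_of_mem
        ((isClosed_slab G.o isCompact_Icc).isOpen_compl.mem_nhds hp) e2) rfl
    have l := Ψ.isLocalDiffeomorph
    have h1 : SameOn (pm (𝓡 3) (𝓡 3) Ψ o') o univ := fun p _ => by
      by_cases hp : p ∈ slab b (Icc (-2⁻¹) 2⁻¹)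
      · obtain ⟨q, -, rfl⟩ := hp
        have n : b (q.1, 1) ∉ slab b (Icc (-2⁻¹) 2⁻¹) := by rw [mem_slab G.o]; norm_num
        refine Orx52.same_of_pt (s := b '' ({q.1} ×ˢ univ)) (oriOn (Orx52.ori_pm M.ho' l) _)
          (oriOn M.ho _) ((isPreconnected_singleton.prod isPreconnected_univ).image _
            G.o.continuous.continuousOn) (x := b (q.1, 1)) ⟨(q.1, 1), ⟨rfl, trivial⟩, rfl⟩ ?_ _
          ⟨q, ⟨rfl, trivial⟩, rfl⟩
        rw [e3 _ n]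
        exact M.ori _ (G.mem_of_notMem i1 n)
      · rw [e3 _ hp]
        exact M.ori _ (G.mem_of_notMem i1 hp)
    have h2 : ∀ p, p ∈ U ↔ Ψ p ∈ U' := fun p => by
      by_cases hp : p ∈ slab b (Ioo (-1) 1)
      · refine iff_of_true (M.sub hp) (M.sub' ?_)
        obtain ⟨q, hq, rfl⟩ := hp
        rw [e1, mem_slab G.o', eF]
        exact hq.2
      · rw [e2 p fun k => hp (slab_mono b i2 k)]
        exact M.mem p hp
    have h3 : ∀ p ∈ U, ∃ f > (0 : ℝ), pm (𝓡 3) (𝓡 3) Ψ τ' p = f • τ p := fun p hU => by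
      by_cases hp : p ∈ slab b (Ioo (-1) 1)
      · obtain ⟨⟨x, y⟩, hq, rfl⟩ := hp
        obtain ⟨f, f1, f2⟩ := M.dy x y hq.2
        obtain ⟨g, g1, g2⟩ := M.dy' (φ (Real.smoothTransition (2 * y)) x) y hq.2
        refine ⟨g / f, div_pos g1 f1, Bb31.eq_of_pm (a := pm (𝓡 3) (𝓡 3) Ψ τ') (b := (g / f) • τ)
          (G.o.loc (x, y)) ?_⟩
        rw [pm_comp ((l _).mdifferentiableAt ne0) ((G.o.contMDiff _).mdifferentiableAt ne0),
          show Ψ ∘ b = b' ∘ F from funext e1, pm_box G.o' (m _), eF, g2, map_smul,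
          pb_dT (m _) (g := id) (fun q => by rw [eF]; rfl) (hasDerivAt_id _), pm_smul, Pi.smul_apply,
          f2, one_smul, smul_smul, div_mul_cancel₀ _ f1.ne']
      · rw [e3 p fun k => hp (slab_mono b i2 k)]
        exact M.ta p hU hp
    refine hE P hP Y Y' Ψ.symm o o' _ _ (fun q _ => ?_) ?_
    · obtain ⟨p, rfl⟩ := Ψ.surjective q
      refine same_of_pm (s := univ) (fun y _ => l y) (fun y _ => ?_) _ ⟨p, trivial, rfl⟩
      rw [Orx52.pm_pm_inv (l y) (.of_forall Ψ.symm_apply_apply)]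
      exact same_symm h1 y trivial
    · rintro c ⟨c1, ⟨C, c2, c3, c4⟩, c5⟩
      refine ⟨c1.pm (Mp.of_contMDiff Ψ.contMDiff (mapsTo_univ _ _)),
        ⟨Ψ ⁻¹' C ∪ slab b (Icc (-2⁻¹) 2⁻¹), (c2.preimage Ψ.continuous).union
          (isClosed_slab G.o isCompact_Icc), union_subset (fun p hp => (h2 p).2 (c3 hp))
          ((slab_mono b i2).trans M.sub), fun p hp => ?_⟩, fun p hp => ?_⟩
      · refine (pm_congr_right (c4 _ fun k => hp (.inl k))).trans ?_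
        exact (e3 p (fun k => hp (.inr k)) _).trans (M.be p fun k => hp (.inr k))
      · obtain ⟨f, f1, f2⟩ := h3 p hp
        refine (rat_smul_pos f1 ?_).1 ((Bb31.pos_ld (l p) (h1 p trivial) _).1 (c5 _ ((h2 p).1 hp)))
        rw [pm_mul, Pi.mul_apply, f2, mul_smul_comm]
        rfl
  | @mul f g h _ kg e ih ih' =>
    intro Y Y'' b b'' G o β U τ o'' β'' U'' τ'' M hC
    obtain ⟨Y', b', G₁, G₂, e1⟩ := (G.cast (k := g.trans f) e).exists_trans
    change ∀ y ∈ G.φ.source, G₂.φ (G₁.φ y) = G.φ y at e1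
    have s : G₁.φ.source = G.φ.source := G₁.src.trans G.src.symm
    have s' : G₂.φ.source = G₁.φ.target := G₂.src.trans G₁.tgt.symm
    obtain ⟨o', o1, o2, o3⟩ := org G₁ M.ho M.hR M.cy (kg.pos M.hR)
    obtain ⟨τ', t1, t2⟩ := exists_dy G₁.o' (pm (𝓡 3) (𝓡 3) G₁.φ.symm τ)
    have key : ∀ p ∈ G₁.φ.source, ∀ c, pm (𝓡 3) (𝓡 3) G₁.φ (pm (𝓡 3) (𝓡 3) G₂.φ c) p =
        pm (𝓡 3) (𝓡 3) G.φ c p := fun p hp c => by
      rw [pm_comp ((ldp G₂.φ (s' ▸ G₁.φ.map_source hp)).mdifferentiableAt ne0)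
        ((ldp G₁.φ hp).mdifferentiableAt ne0)]
      exact pm_congr (eventually_of_mem (G.φ.open_source.mem_nhds (s ▸ hp)) e1) rfl
    have hm : ∀ p ∉ slab b (Ioo (-1) 1),
        p ∈ U ↔ G₁.φ p ∈ slab b' (Ioo (-1) 1) ∪ G₁.φ.symm ⁻¹' U := fun p hp => by
      have k := G₁.mem_of_notMem i0 hp
      rw [mem_union, G₁.mem_slab k, or_iff_right hp, mem_preimage]
      exact (congrArg (· ∈ U) (G₁.φ.left_inv k)).symm.to_iff
    have ht : ∀ p ∉ slab b (Ioo (-1) 1), pm (𝓡 3) (𝓡 3) G₁.φ τ' p = τ p := fun p hp => by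
      have k := G₁.mem_of_notMem i0 hp
      rw [pm_congr_right (t2 _ (mt (G₁.mem_slab k).1 hp)), pm_pm_symm G₁ k]
    refine ih G₂ (o := o') (β := pm (𝓡 3) (𝓡 3) G₁.φ.symm β)
      (U := slab b' (Ioo (-1) 1) ∪ G₁.φ.symm ⁻¹' U) (τ := τ')
      ⟨M.hR, o1, M.ho', o2, fun q hq => ?_, subset_union_left, M.sub', t1, M.dy', fun q hq => ?_,
        fun q hq => ?_, fun q hU hq => ?_⟩
      (ih' G₁ ⟨M.hR, M.ho, o1, M.cy, o3, M.sub, subset_union_left, M.dy, t1, hm,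
        fun p hp => pm_pm_symm G₁ (G₁.mem_of_notMem i1 hp) β,
        fun p _ hp => ⟨1, one_pos, by rw [ht p hp, one_smul]⟩⟩ hC)
    · refine same_of_pm (s := G₁.φ.source) (fun y => ldp G₁.φ) (fun p hp => ?_) q
        (G₁.φ.toPartialEquiv.image_source_eq_target.symm ▸ s' ▸ hq)
      rw [key p hp]
      exact Orx52.pos_trans (M.ori p (s ▸ hp)) (same_symm o3 p hp)
    · obtain ⟨p, k, hp, rfl⟩ := exists_pre G₁ i0 hq
      rw [← hm p hp, e1 p (s ▸ k)]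
      exact M.mem p hp
    · obtain ⟨p, k, hp, rfl⟩ := exists_pre G₁ i1 hq
      exact Bb31.eq_of_pm (ldp G₁.φ k) (by rw [key p k, pm_pm_symm G₁ k, M.be p hp])
    · obtain ⟨p, k, hp, rfl⟩ := exists_pre G₁ i0 hq
      obtain ⟨r, r1, r2⟩ := M.ta p ((hm p hp).2 hU) hp
      exact ⟨r, r1, Bb31.eq_of_pm (a := pm (𝓡 3) (𝓡 3) G₂.φ τ'') (b := r • τ') (ldp G₁.φ k)
        (by rw [key p k, r2, pm_smul, Pi.smul_apply, ht p hp])⟩

end Crest.Agent.X212.H7
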