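import Crest.Agent.X212.H7.Reg

/-!
# X212/H7/Two (helper7): two caps along the tower
-/

set_option autoImplicit false
set_option linter.unusedSectionVars false

open Set Filter Topology Function
open scoped ContDiff Manifold Crest.Agent.X212.Sym24
open Crest.Agent.R208.F Crest.Agent.X212.Dr59 Crest.Agent.X212.Cyl58
open Crest.Agent.X212.Int54 hiding cy dt
open Crest.Agent.X212.Sep15 (EE IR CM End Box slab px Rg mem_slab slab_mono isClosed_slab)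
open Crest.Agent.X212.Bb31 (Fm Df Pos Cy SP Z2 Dy AA Cap OC Clo Mt RegStmt ReStmt KillStmt OE)
open Crest.Agent.X212.Sym24 (pu dT dt nc up)
open Crest.Agent.X212.Orx52 (cy ldp oriOn ori_cy same_pm same_of_pm same_trans same_symm)
open Crest.Agent.X212.Line51 (ang)

noncomputable section

namespace Crest.Agent.X212.H7

variable {Y Y' : CM 3} {R : CM 2} {b : R × ℝ → Y} {h : Df R} {b' : R × ℝ → Y'}

/-! ### reversing the height -/

/-- `h × (-1)` -/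
def fl (h : Df R) : (R × ℝ) ≃ₘ^∞⟮IR 2, IR 2⟯ (R × ℝ) :=
  h.prodCongr (ContinuousLinearEquiv.neg ℝ : ℝ ≃L[ℝ] ℝ).toDiffeomorph

theorem fl_apply (h : Df R) (p : R × ℝ) : fl h p = (h p.1, -p.2) := rfl

theorem box_fl (hb : Box b) (h : Df R) : Box (b ∘ fl h) := IsOE.comp hb (IsOE.of_diffeo _)

theorem slab_fl (b : R × ℝ → Y) (h : Df R) {s : Set ℝ} (hs : ∀ y ∈ s, -y ∈ s) :
    slab (b ∘ fl h) s = slab b s := by
  refine Subset.antisymm ?_ ?_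
  · rintro _ ⟨p, hp, rfl⟩
    exact ⟨_, ⟨trivial, hs _ hp.2⟩, rfl⟩
  · rintro _ ⟨p, hp, rfl⟩
    exact ⟨(h.symm p.1, -p.2), ⟨trivial, hs _ hp.2⟩, by simp [fl_apply]⟩

theorem n0 : ∀ y ∈ ({0} : Set ℝ), -y ∈ ({0} : Set ℝ) := by simp
theorem no {a : ℝ} : ∀ y ∈ Ioo (-a) a, -y ∈ Ioo (-a) a := fun _ h => ⟨neg_lt_neg h.2, neg_lt.1 h.1⟩
theorem nc' {a : ℝ} : ∀ y ∈ Icc (-a) a, -y ∈ Icc (-a) a := fun _ h => ⟨neg_le_neg h.2, neg_le.1 h.1⟩

/-- the identity -/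
abbrev one (R : CM 2) : Df R := Diffeomorph.refl (𝓡 2) R ∞

/-- the regluing seen upside down -/
def flip (G : Rg b h b') : Rg (b ∘ fl (one R)) h.symm (b' ∘ fl h) where
  o := box_fl G.o _
  o' := box_fl G.o' _
  φ := G.φ
  src := by rw [slab_fl _ _ n0, G.src]
  tgt := by rw [slab_fl _ _ n0, G.tgt]
  lo p hp := G.hi (p.1, -p.2) (neg_pos.2 hp)
  hi p hp := (G.lo (p.1, -p.2) (neg_neg_of_pos hp)).trans (by simp [fl_apply, px])

theorem md_fl (h : Df R) (p : R × ℝ) : MDifferentiableAt (IR 2) (IR 2) (fl h) p :=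
  (fl h).contMDiff.mdifferentiableAt ne0

theorem pb_fl (h : Df R) (p : R × ℝ) :
    pb (mf (IR 2) (IR 2) (fl h) p : EE 2 × ℝ →ₗ[ℝ] EE 2 × ℝ) (dT (EE 2)) = -dT (EE 2) := by
  rw [pb_dT (md_fl h p) (g := Neg.neg) (fun _ => rfl) (hasDerivAt_neg _), neg_one_smul]

theorem pb_fl_up (p : R × ℝ) (a : Fm 2 R) :
    pb (mf (IR 2) (IR 2) (fl (one R)) p : EE 2 × ℝ →ₗ[ℝ] EE 2 × ℝ) (up (a p.1)) = up (a p.1) := by
  have := pm_comp (a := a) (g := Prod.fst) mdifferentiableAt_fst (md_fl (one R) p)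
  rwa [show Prod.fst ∘ fl (one R) = Prod.fst from rfl, Sym24.pm_fst] at this

theorem dy_fl (hb : Box b) (h : Df R) {τ : Fm 3 Y} (d : Dy b τ (Ioo (-1) 1)) :
    Dy (b ∘ fl h) (-τ) (Ioo (-1) 1) := fun x y hy => by
  obtain ⟨f, f1, f2⟩ := d (h x) (-y) (no y hy)
  refine ⟨f, f1, ?_⟩
  rw [pm_neg, Pi.neg_apply, pm_box hb (md_fl h _), fl_apply, f2, map_smul, pb_fl, smul_neg, neg_neg]

theorem cy_fl (hb : Box b) {oR : Fm 2 R} {o : Fm 3 Y} (c : Cy oR o b) :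
    Cy oR (-o) (b ∘ fl (one R)) := fun p _ => by
  have h1 := same_pm c (fun y _ => (fl (one R)).isLocalDiffeomorph y) (mapsTo_univ _ univ) p trivial
  have h2 : pm (IR 2) (IR 2) (fl (one R)) (dt (EE 2) R * pu oR) p = -(dt (EE 2) R * pu oR) p := by
    rw [pm_apply, Pi.mul_apply, map_mul]
    exact (congrArg₂ (· * ·) (pb_fl _ p) (pb_fl_up p oR)).trans (neg_mul _ _)
  rw [h2, map_neg] at h1
  rw [pm_neg, Pi.neg_apply, pm_box hb (md_fl _ _), map_neg, neg_mul_comm]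
  exact h1

theorem Kl.neg {oR ν : Fm 2 R} (k : Kl oR ν) : Kl oR (-ν) := by
  obtain ⟨h0, θ, θ₁, t, h1, h2, h3, h4, h5⟩ := k
  refine ⟨h0.neg, -θ, -θ₁, t, h1.neg, fun x hx => ?_, h3, h4.neg, ?_⟩
  · rw [neg_mul_neg]
    exact h2 x (neg_ne_zero.1 hx)
  · convert h5.neg using 1
    rw [pm_neg]
    abel

theorem Kl.neg' {oR ν : Fm 2 R} (k : Kl oR ν) : Kl (-oR) ν := by
  obtain ⟨h0, θ, θ₁, t, h1, h2, h3, h4, h5⟩ := k.neg
  refine ⟨k.1, θ, θ₁, t, h1, fun x hx => ?_, pos_neg h3, h4, h5⟩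
  have := h2 x (neg_ne_zero.2 hx)
  rwa [mul_neg, rat_neg, ← rat_neg_left] at this

theorem kl_zero {oR : Fm 2 R} (ho : Ori (𝓡 2) oR) : Kl oR 0 :=
  ⟨Dg.zero, 0, 0, one R, Cl.zero, fun _ h => (h rfl).elim, (KK.refl oR).pos ho, Cl.zero,
    by simpa using Ex.zero⟩

/-! ### one step -/

/-- the data of one step -/
structure Sd (G : Rg b h b') (oR ν : Fm 2 R) (o β : Fm 3 Y) (U : Set Y) (τ : Fm 3 Y)
    (o' β' : Fm 3 Y') (U' : Set Y') (τ' : Fm 3 Y') : Prop where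
  hR : Ori (𝓡 2) oR
  ho : Ori (𝓡 3) o
  ho' : Ori (𝓡 3) o'
  kk : KK oR h
  kl : Kl oR ν
  cy : Cy oR o b
  ori : SameOn (pm (𝓡 3) (𝓡 3) G.φ o') o G.φ.source
  mem : β ∈ AA o β U τ
  sm : Sm (𝓡 3) U τ
  sub : slab b (Icc (-1) 1) ⊆ U
  hel : ∃ k : R × ℝ → ℝ, (∀ p, 0 < k p) ∧ ∀ x, ∀ y ∈ Ioo (-1 : ℝ) 1,
    pm (IR 2) (𝓡 3) b τ (x, y) = k (x, y) • dT (EE 2) + pu ν (x, y)
  sub' : slab b' (Ioo (-1) 1) ⊆ U'
  dy' : Dy b' τ' (Ioo (-1) 1)
  be : ∀ p ∉ slab b (Icc (-2⁻¹) 2⁻¹), pm (𝓡 3) (𝓡 3) G.φ β' p = β p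
  ta : ∀ p ∉ slab b (Ioo (-1) 1), G.φ p ∈ U' →
    p ∈ U ∧ ∃ f > (0 : ℝ), pm (𝓡 3) (𝓡 3) G.φ τ' p = f • τ p

variable {G : Rg b h b'} {oR ν : Fm 2 R} {o β : Fm 3 Y} {U : Set Y} {τ : Fm 3 Y}
  {o' β' : Fm 3 Y'} {U' : Set Y'} {τ' : Fm 3 Y'} {P : ∀ Y : CM 3, End Y → Prop}

theorem Sd.flip (D : Sd G oR ν o β U τ o' β' U' τ') :
    Sd (flip G) oR (-ν) (-o) β U (-τ) (-o') β' U' (-τ') where
  hR := D.hR
  ho := Orx52.ori_neg D.ho
  ho' := Orx52.ori_neg D.ho'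
  kk := D.kk.symm
  kl := D.kl.neg
  cy := cy_fl G.o D.cy
  ori := Orx52.Pos.neg D.ori
  mem := (aa_neg o β U τ).symm ▸ D.mem
  sm := D.sm.neg
  sub := (slab_fl b _ nc').symm ▸ D.sub
  hel := by
    obtain ⟨k, k1, k2⟩ := D.hel
    refine ⟨fun p => k (p.1, -p.2), fun _ => k1 _, fun x y hy => ?_⟩
    rw [pm_neg, Pi.neg_apply, pm_box G.o (md_fl _ _), show fl (one R) (x, y) = (x, -y) from rfl,
      k2 x _ (no y hy), map_add, map_smul, pb_fl, smul_neg, neg_add, neg_neg]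
    exact congrArg _ ((congrArg Neg.neg (pb_fl_up (x, y) ν)).trans (map_neg up _).symm)
  sub' := (slab_fl b' _ no).symm ▸ D.sub'
  dy' := dy_fl G.o' h D.dy'
  be := fun p hp => D.be p (slab_fl b (one R) nc' ▸ hp)
  ta := fun p hp hU => by
    obtain ⟨h1, f, f1, f2⟩ := D.ta p (slab_fl b (one R) no ▸ hp) hU
    exact ⟨h1, f, f1, by rw [pm_neg, Pi.neg_apply, Pi.neg_apply, smul_neg]; exact congrArg _ f2⟩

theorem Sd.side (hP : Clo P) (hR : RegStmt) (hE : ReStmt) (hK : KillStmt) [hc : PreconnectedSpace R]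
    (D : Sd G oR ν o β U τ o' β' U' τ') (C : Cap P Y o (AA o β U τ)) :
    Cap P Y' o' (AA o' β' U' τ') := by
  obtain ⟨σ, s1, s2⟩ := exists_dy G.o τ
  obtain ⟨k, k1, k2⟩ := D.hel
  obtain ⟨h0, θ, θ₁, t, h1, h2, h3, h4, h5⟩ := D.kl
  refine regK hP hR hE D.kk G (o := o) (β := β) (U := slab b (Ioo (-1) 1) ∪ G.φ ⁻¹' U') (τ := σ)
    ⟨D.hR, D.ho, D.ho', D.cy, D.ori, subset_union_left, D.sub', s1, D.dy',
      fun p hp => or_iff_right hp, D.be, fun p hU hp => ?_⟩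
    (hK P hP Y R o β τ σ U _ oR ν θ θ₁ b k t hc D.ho D.hR G.o D.cy D.mem D.sm D.sub (fun p hp => ?_)
      subset_union_left s1 (fun p _ hp => ⟨1, one_pos, by rw [s2 p hp, one_smul]⟩) h0 h1 h2 k1 k2
      h3 h4 h5 C)
  · rw [s2 p hp]
    exact (D.ta p hp (hU.resolve_left hp)).2
  · by_cases k : p ∈ slab b (Ioo (-1) 1)
    · exact D.sub (slab_mono b Ioo_subset_Icc_self k)
    · exact (D.ta p k (hp.resolve_left k)).1

theorem Sd.mem' (D : Sd G oR ν o β U τ o' β' U' τ') (c : Cy oR o' b') (z : Z2 β')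
    (s : SP oR b' β' (Icc (-1) 1)) : β' ∈ AA o' β' U' τ' := aa_self z fun q hq => by
  by_cases k : q ∈ slab b' (Ioo (-1) 1)
  · obtain ⟨⟨x, y⟩, hy, rfl⟩ := k
    obtain ⟨f, f1, f2⟩ := D.dy' x y hy.2
    exact (Bb31.pos_box' G.o' c f1 f2 (z.dg _ trivial)).2 (s x y (Ioo_subset_Icc_self hy.2))
  · obtain ⟨p, k', hp, rfl⟩ := exists_pre G i0 k
    obtain ⟨h1, f, f1, f2⟩ := D.ta p hp hq
    refine (Bb31.pos_ld (ldp G.φ k') (D.ori p k') _).2 ((rat_smul_pos f1 ?_).2 (D.mem.2.2 p h1))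
    rw [pm_mul, Pi.mul_apply, f2, mul_smul_comm, D.be p fun k => hp (slab_mono b i2 k)]
    rfl

theorem Two.mono {V : Set Y} (T : Two P Y o β U τ) (s : V ⊆ U) : Two P Y o β V τ :=
  ⟨aa_self T.1.1 fun p hp => T.1.2.2 p (s hp), cap_mono (aa_mono T.1 s) T.2.1,
    cap_mono (aa_mono T.1 s) T.2.2⟩

theorem Two.change {β₁ : Fm 3 Y} (T : Two P Y o β U τ) (s : β₁ ∈ AA o β U τ) : Two P Y o β₁ U τ :=
  ⟨aa_self s.1 s.2.2, cap_mono (aa_sub s) T.2.1, cap_mono (aa_sub s) T.2.2⟩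

theorem Sd.two (hP : Clo P) (hR : RegStmt) (hE : ReStmt) (hK : KillStmt) [PreconnectedSpace R]
    (D : Sd G oR ν o β U τ o' β' U' τ') (c : Cy oR o' b') (z : Z2 β')
    (s : SP oR b' β' (Icc (-1) 1)) (T : Two P Y o β U τ) : Two P Y' o' β' U' τ' :=
  ⟨D.mem' c z s, D.side hP hR hE hK T.2.1,
    aa_neg o' β' U' τ' ▸ D.flip.side hP hR hE hK ((aa_neg o β U τ).symm ▸ T.2.2)⟩

theorem cy_or [PreconnectedSpace R] (hb : Box b) (ho : Ori (𝓡 3) o) (hR : Ori (𝓡 2) oR) :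
    Cy oR o b ∨ Cy oR (-o) b :=
  Orx52.pos_or isPreconnected_univ (oriOn (ori_cy hR) _) (oriOn ho univ) (fun y _ => hb.loc y)
    (mapsTo_univ _ _)

theorem cy_neg (c : Cy oR (-o) b) : Cy (-oR) o b := fun p hp => by
  have := c p hp
  rw [pm_neg, Pi.neg_apply, map_neg, neg_mul_comm, Orx52.tp_cy, ← mul_neg, ← map_neg] at this
  rwa [Orx52.tp_cy]

theorem same_of_symm (k : SameOn (pm (𝓡 3) (𝓡 3) G.φ.symm o) o' G.φ.target) :
    SameOn (pm (𝓡 3) (𝓡 3) G.φ o') o G.φ.source := fun p hp => by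
  have := same_pm k (fun _ => ldp G.φ) G.φ.mapsTo p hp
  rwa [pm_pm_symm G hp, mul_comm] at this

theorem pm_cay {Φ : Y → Circle} (hb : Box b) (hΦ : ContMDiff (𝓡 3) (𝓡 1) ∞ Φ)
    (e : ∀ p, Φ (b p) = cay p.2) (p : R × ℝ) :
    pm (IR 2) (𝓡 3) b (ang (𝓡 3) Φ) p = (2 * (1 / (1 + p.2 ^ 2))) • dT (EE 2) := by
  rw [Line51.pm_ang (hΦ _) ((hb.contMDiff _).mdifferentiableAt ne0),
    show Φ ∘ b = fun p => Circle.exp (Real.pi + 2 * Real.arctan p.2) from funext e,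
    Line51.ang_exp (f := fun p : R × ℝ => Real.pi + 2 * Real.arctan p.2) (((contDiff_const.add (contDiff_const.mul Real.contDiff_arctan)).contMDiff.comp
      contMDiff_snd) p)]
  exact Sym24.df_comp_snd (((Real.hasDerivAt_arctan p.2).const_mul 2).const_add _)

theorem dy_cay {Φ : Y → Circle} (hb : Box b) (hΦ : ContMDiff (𝓡 3) (𝓡 1) ∞ Φ)
    (e : ∀ p, Φ (b p) = cay p.2) (s : Set ℝ) : Dy b (ang (𝓡 3) Φ) s :=
  fun x y _ => ⟨_, by positivity, pm_cay hb hΦ e (x, y)⟩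

/-- the model of `R × S¹` -/
abbrev IP := (𝓡 2).prod (𝓡 1)

/-- the two caps of the product -/
theorem two_prod (hB : BaseQ P) [hc : PreconnectedSpace R] (g3 : ∃ o₀ : Fm 2 R, Ori (𝓡 2) o₀ ∧ G3 o₀)
    (f : (R × Circle) ≃ₘ^∞⟮IP, 𝓡 3⟯ Y) (hb : Box fun p : R × ℝ => f (p.1, cay p.2))
    (hR : Ori (𝓡 2) oR) : ∃ o β : Fm 3 Y, Ori (𝓡 3) o ∧ Cy oR o (fun p => f (p.1, cay p.2)) ∧
      SP oR (fun p => f (p.1, cay p.2)) β (Icc (-1) 1) ∧
      Two P Y o β univ (ang (𝓡 3) fun p => (f.symm p).2) := by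
  obtain ⟨C, B, rfl⟩ := Sep15.bsStmt R Y f
  set τ := ang (𝓡 3) fun p => (B.f.symm p).2
  have sΦ : ContMDiff (𝓡 3) (𝓡 1) ∞ fun p => (B.f.symm p).2 := contMDiff_snd.comp B.f.symm.contMDiff
  have m : ∀ p, MDifferentiableAt IP (𝓡 3) B.f p := fun p => B.f.contMDiff.mdifferentiableAt ne0
  have e : ∀ p, pm IP (𝓡 3) B.f τ p = pm IP (𝓡 1) Prod.snd Orx52.oC p := fun p => by
    rw [Line51.pm_ang (sΦ _) (m p), Orx52.oC, Line51.pm_ang contMDiffAt_id mdifferentiableAt_snd]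
    exact congrArg (ang IP · p) (funext fun q => by simp)
  have k : ∀ {a : Fm 2 R}, Ori (𝓡 2) a → ∀ β, Cap P Y (pm (𝓡 3) IP B.f.symm (Orx52.pr a Orx52.oC))
      (AA (pm (𝓡 3) IP B.f.symm (Orx52.pr a Orx52.oC)) β univ τ) := fun {a} ha β =>
    hB Y R C B _ β τ a hc g3 (Orx52.ori_pm (Orx52.ori_pr ha Orx52.ori_oC) B.f.symm.isLocalDiffeomorph)
      ha (fun p _ => by
        rw [Orx52.pm_pm_inv (B.f.isLocalDiffeomorph p) (.of_forall B.f.symm_apply_apply)]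
        exact mul_self_pos.2 ((Orx52.ori_pr ha Orx52.ori_oC).ne p))
      fun p => ⟨1, one_pos, by rw [e, one_smul]⟩
  set O := pm (𝓡 3) IP B.f.symm (Orx52.pr oR Orx52.oC)
  have hO : Ori (𝓡 3) O := Orx52.ori_pm (Orx52.ori_pr hR Orx52.ori_oC) B.f.symm.isLocalDiffeomorph
  have k' : ∀ β, Cap P Y (-O) (AA (-O) β univ τ) := fun β => by
    have := k (Orx52.ori_neg hR) β
    rwa [show Orx52.pr (-oR) Orx52.oC = -Orx52.pr oR Orx52.oC by
      rw [Orx52.pr_eq (𝓡 2) (𝓡 1), Orx52.pr_eq (𝓡 2) (𝓡 1), pm_neg, neg_mul], pm_neg] at this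
  have n : ∀ {o β a : Fm 3 Y}, a ∈ AA o β univ τ → -a ∈ AA (-o) β univ τ := fun h =>
    ⟨h.1.neg, ⟨univ, isClosed_univ, Subset.rfl, fun _ h => (h trivial).elim⟩, fun p hp => by
      rw [neg_mul, rat_neg, rat_neg_left, neg_neg]; exact h.2.2 p hp⟩
  let a := dp 2 oR
  have ta : ∀ x, tp _ (a x) = tp _ (oR x) := fun x => by
    have := Orx52.tp_dp oR x
    rwa [finrank_euclideanSpace_fin] at this
  have ha : Ori (𝓡 2) a := ⟨fun x => (hR.sm x).dp 2, fun x => ta x ▸ hR.ne x⟩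
  have da : Dg 2 univ a := fun _ _ => R208.T.isDeg_dpl _ _
  have ca : Cl (𝓡 2) 2 univ a := ⟨fun x _ => ha.sm x, da, fun x _ =>
    Sym24.eq_zero_of_deg (Dg.dM isOpen_univ da x trivial) (by simp)⟩
  have s1 : ContMDiff (𝓡 3) (𝓡 2) ∞ fun p => (B.f.symm p).1 := contMDiff_fst.comp B.f.symm.contMDiff
  let β := pm (𝓡 3) (𝓡 2) (fun p => (B.f.symm p).1) a
  have z : Z2 β := ca.pm (Mp.of_contMDiff s1 (mapsTo_univ _ _))
  have sp : ∀ s, SP oR (fun p => B.f (p.1, cay p.2)) β s := fun s x y _ => by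
    have : pm (IR 2) (𝓡 3) (fun p : R × ℝ => B.f (p.1, cay p.2)) β = pu a := funext fun p => by
      rw [pm_comp ((s1 _).mdifferentiableAt ne0) ((hb.contMDiff p).mdifferentiableAt ne0),
        ← Sym24.pm_fst (I := 𝓡 2)]
      exact congrArg (pm (IR 2) (𝓡 2) · a p) (funext fun q => by simp)
    rw [this, Sym24.sl_pu, rat, ta, div_self (hR.ne x)]
    exact one_pos
  have mem : ∀ {o : Fm 3 Y}, Ori (𝓡 3) o → Cy oR o (fun p => B.f (p.1, cay p.2)) →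
      β ∈ AA o β univ τ := fun {o} ho c => aa_self z fun p _ => by
    have : PreconnectedSpace Y := B.f.surjective.denseRange.preconnectedSpace B.f.continuous
    have hO' : Ori (𝓡 3) (β * τ) := ⟨fun q => (z.sm q trivial).mul (Line51.smAt_ang (sΦ q)), fun q => by
      obtain ⟨q, rfl⟩ := B.f.surjective q
      have h1 := (Orx52.ori_pr ha Orx52.ori_oC).ne q
      rw [Orx52.pr_eq (𝓡 2) (𝓡 1), Pi.mul_apply, ← e,
        show pm IP (𝓡 2) Prod.fst a q = pm IP (𝓡 3) B.f β q by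
          rw [pm_comp ((s1 _).mdifferentiableAt ne0) (m q)]
          exact congrArg (pm IP (𝓡 2) · a q) (funext fun q => by simp),
        ← Pi.mul_apply, ← pm_mul, Orx52.tp_ld (B.f.isLocalDiffeomorph q)] at h1
      exact right_ne_zero_of_mul h1⟩
    refine Orx52.pos_rat.2 (Orx52.same_of_pt (oriOn ho _) (oriOn hO' _) isPreconnected_univ
      (x := B.f ((B.f.symm p).1, cay 0)) trivial (Orx52.pos_rat.1 ?_) p trivial)
    exact (Bb31.pos_box' hb c (by positivity) (pm_cay hb sΦ (by simp) ((B.f.symm p).1, 0))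
      (z.dg _ trivial)).2 (sp univ _ _ trivial)
  rcases cy_or hb hO hR with c | c
  · exact ⟨O, β, hO, c, sp _, mem hO c, k hR β, cap_neg (fun _ => n) (k' β)⟩
  · exact ⟨-O, β, Orx52.ori_neg hO, c, sp _, mem (Orx52.ori_neg hO) c, k' β,
      (neg_neg O).symm ▸ cap_neg (fun _ h => by have := n h; rwa [neg_neg] at this) (k hR β)⟩

theorem KK.or {a : Fm 2 R} (k : KK oR h) (e : a = oR ∨ a = -oR) : KK a h :=
  e.elim (· ▸ k) (· ▸ k.neg)

theorem exists_cy [PreconnectedSpace R] (hb : Box b) (ho : Ori (𝓡 3) o) (hR : Ori (𝓡 2) oR) :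
    ∃ a, (a = oR ∨ a = -oR) ∧ Ori (𝓡 2) a ∧ Cy a o b :=
  (cy_or hb ho hR).elim (fun c => ⟨_, .inl rfl, hR, c⟩) fun c =>
    ⟨_, .inr rfl, Orx52.ori_neg hR, cy_neg c⟩

theorem same_pos (hs : IsPreconnected G.φ.source) (ho : Ori (𝓡 3) o) (ho' : Ori (𝓡 3) o')
    (c : Cy oR o b) (c' : Cy oR o' b') (x : R) :
    SameOn (pm (𝓡 3) (𝓡 3) G.φ o') o G.φ.source ∧ Pos oR h := by
  have md : ∀ p : R × ℝ, p.2 ≠ 0 → pm (IR 2) (𝓡 3) b (pm (𝓡 3) (𝓡 3) G.φ o') p =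
      pm (IR 2) (𝓡 3) (G.φ ∘ b) o' p := fun p hp => pm_comp
    ((ldp G.φ (G.b_mem.2 hp)).mdifferentiableAt ne0) ((G.o.contMDiff p).mdifferentiableAt ne0)
  have h1 : SameOn (pm (𝓡 3) (𝓡 3) G.φ o') o G.φ.source := by
    refine Orx52.same_of_pt ((oriOn ho' univ).pm (fun _ => ldp G.φ) (mapsTo_univ _ _)) (oriOn ho _) hs
      (x := b (x, -1)) (G.b_mem.2 (by norm_num)) (same_of_pm (s := {(x, -1)})
        (fun y _ => G.o.loc y) ?_ _ ⟨_, rfl, rfl⟩)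
    rintro _ rfl
    rw [md _ (by norm_num), pm_congr (f := G.φ ∘ b) (g := b') (b := o') (y := (x, -1))
      (((isOpen_lt continuous_snd continuous_const).eventually_mem (by norm_num)).mono G.lo) rfl]
    exact Orx52.pos_trans (c' _ trivial) (same_symm c _ trivial)
  refine ⟨h1, fun y _ => ?_⟩
  have l := (Sep15.isOE_px (IsOE.of_diffeo h)).loc
  have h2 := same_pm h1 (s := {(y, 1)}) (fun y _ => G.o.loc y)
    (fun _ e => e ▸ G.b_mem.2 one_ne_zero) _ rfl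
  rw [md _ one_ne_zero, pm_congr (f := G.φ ∘ b) (g := b' ∘ px h) (b := o') (y := (y, 1))
    (((isOpen_lt continuous_const continuous_snd).eventually_mem (by norm_num)).mono G.hi) rfl, Orx52.pm_comp_ld (G.o'.loc _) (l _)] at h2
  exact (pos_of_cy ((l (y, 1)).mdifferentiableAt ne0) fun _ => rfl).1 (Orx52.pos_trans
    (same_symm (same_pm c' (fun y _ => l y) (mapsTo_univ _ univ)) _ trivial)
    (Orx52.pos_trans h2 (c _ trivial)))

/-- **two caps along the tower** -/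
theorem FT.two (hP : Clo P) (hB : BaseQ P) (hR : RegStmt) (hE : ReStmt) (hK : KillStmt)
    (h1 : PerfStmt) (h2 : FibStmt) (h3 : ColStmt) (h4 : RgbStmt) {Y : CM 3} {U : Set Y} {τ : Fm 3 Y}
    (T : FT Y U τ) : ∀ o, Ori (𝓡 3) o → ∃ β, Two P Y o β U τ := by
  induction T with
  | @base Y R Φ b oR F n hc hoR g =>
    intro o ho
    obtain ⟨Y₀, f, h, b', G, e1, e2⟩ := h2 Y R Φ b F n
    obtain ⟨a, a1, a2, a3⟩ := exists_cy G.o' ho hoR
    obtain ⟨o₀, β₀, k1, k2, k3, k4⟩ := two_prod hB ⟨oR, hoR, g⟩ f G.o a2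
    obtain ⟨A, -⟩ := id g
    have sΦ : ContMDiff (𝓡 3) (𝓡 1) ∞ fun p => (f.symm p).2 := contMDiff_snd.comp f.symm.contMDiff
    have hs : IsPreconnected G.φ.source := by
      have : G.φ.source = f '' (univ ×ˢ {cay 0}ᶜ) := by
        rw [G.src]
        ext p
        obtain ⟨q, rfl⟩ := f.surjective p
        refine ⟨fun k => ⟨q, ⟨trivial, fun e => k ⟨(q.1, 0), ⟨trivial, rfl⟩, ?_⟩⟩, rfl⟩, ?_⟩
        · exact congrArg f (Prod.ext rfl e.symm)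
        · rintro ⟨r, hr, e⟩ ⟨u, hu, e'⟩
          refine hr.2 ((congrArg Prod.snd (f.injective (e.trans e'.symm))).trans ?_)
          exact congrArg cay hu.2
      rw [this]
      exact (isPreconnected_univ.prod (Circle.isPathConnected_compl_singleton _).isConnected.2).image _
        f.continuous.continuousOn
    obtain ⟨s1, s2⟩ := same_pos hs k1 ho k2 a3 (A 0 0)
    obtain ⟨β, b1, b2, b3⟩ := h4 _ _ R _ h b' G β₀ a hc a2 s2 k4.1.1 k3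
    refine ⟨β, Sd.two hP hR hE hK (ν := 0) ⟨a2, k1, ho, (h1 R oR hoR g h ?_).or a1, kl_zero a2, k2, s1,
      k4.1, fun p _ => Line51.smAt_ang (sΦ p), subset_univ _,
      ⟨fun p => 2 * (1 / (1 + p.2 ^ 2)), fun _ => by positivity, fun x y _ => ?_⟩, subset_univ _,
      dy_cay G.o' F.sm e1 _, b3, fun p hp _ => ⟨trivial, 1, one_pos, ?_⟩⟩ a3 b1 b2 k4⟩
    · rcases a1 with rfl | rfl
      exacts [s2, neg_neg oR ▸ pos_neg s2]
    · rw [pm_cay G.o sΦ (by simp), pu, Pi.zero_apply, map_zero, add_zero]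
    · have k := G.mem_of_notMem i0 hp
      rw [one_smul, Line51.pm_ang (F.sm _) ((ldp G.φ k).mdifferentiableAt ne0)]
      exact Line51.ang_congr (eventually_of_mem (G.φ.open_source.mem_nhds k) e2)
  | @step Y Y' R b h b' G oR ν U τ U' τ' hc hoR kk kl hx cl dy ta _ ih =>
    intro o' ho'
    obtain ⟨a, a1, a2, a3⟩ := exists_cy G.o' ho' hoR
    have ka := kk.or a1
    have la : Kl a ν := a1.elim (· ▸ kl) (· ▸ kl.neg')
    obtain ⟨o, o1, o2, o3⟩ := org G.symm ho' a2 a3 (ka.symm.pos a2)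
    obtain ⟨β₀, T⟩ := ih o o1
    obtain ⟨β₁, m, sp⟩ := h3 Y R o β₀ τ U a ν b hc o1 a2 G.o o2 la hx cl T.1
    obtain ⟨β, b1, b2, b3⟩ := h4 _ _ R _ h b' G β₁ a hc a2 (ka.pos a2) m.1 sp
    obtain ⟨k, k1, k2⟩ := hx.eq
    refine ⟨β, (Sd.two hP hR hE hK (U' := slab b' (Ioo (-1) 1) ∪ U') ⟨a2, o1, ho', ka, la, o2,
      same_of_symm o3, (T.change m).1, hx.sm,
      (slab_mono b (Icc_subset_Icc (by norm_num) (by norm_num))).trans hx.sub,
      ⟨k, k1, fun x y hy => k2 x y (Ioo_subset_Ioo (by norm_num) (by norm_num) hy)⟩,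
      subset_union_left, dy, b3, fun p hp hU => ta p hp (hU.resolve_left
        (mt (G.mem_slab (G.mem_of_notMem i0 hp)).1 hp))⟩ a3 b1 b2 (T.change m)).mono
      subset_union_right⟩

end Crest.Agent.X212.H7
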